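import Vale.Agent.P151.QP.Stmts

/-!
# The drop of the tail: from Foelner averages to every vertex
-/

set_option autoImplicit false
set_option linter.unusedSectionVars false

open Finset SimpleGraph

namespace Vale.Agent.P151.QP

open Vale.Agent.P151 Vale.Agent.P151.R2.H279

variable {V : Type*} [DecidableEq V] {G : SimpleGraph V} [G.LocallyFinite]

lemma ww_nonneg {h2 h3 : ℝ} (_a0 : 0 ≤ h2) (a1 : h2 ≤ 1) (b0 : 0 ≤ h3) (b1 : h3 ≤ 1) (x : V)
    (S : Finset (Sym2 V)) : 0 ≤ ww h2 h3 x S := by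
  unfold ww
  have h1 : (1 - h3) ^ csz S x ≤ 1 := pow_le_one₀ (by linarith) (by linarith)
  exact mul_nonneg (pow_nonneg (by linarith) _) (by linarith)

/-- `(1 - 1 / N) ^ N` is at least `1 / 4`. -/
lemma pow_ge_quarter {N : ℕ} (hN : 2 ≤ N) : (1 : ℝ) / 4 ≤ (1 - 1 / (N : ℝ)) ^ N := by
  -- split `N = 2 a` or `2 a + 1`
  have hN0 : (0 : ℝ) < N := by positivity
  have hN2 : (2 : ℝ) ≤ N := by exact_mod_cast hN
  set q : ℝ := 1 - 1 / (N : ℝ) with hq
  have hq1 : q ≤ 1 := by rw [hq]; have : 0 < 1 / (N : ℝ) := by positivity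
                         linarith
  have hqh : 1 / 2 ≤ q := by
    rw [hq]
    have : 1 / (N : ℝ) ≤ 1 / 2 := one_div_le_one_div_of_le (by norm_num) hN2
    linarith
  rcases Nat.even_or_odd' N with ⟨a, ha | ha⟩
  · -- even case
    have ha0 : (N : ℝ) = 2 * a := by exact_mod_cast ha
    have hb : (1 : ℝ) / 2 ≤ q ^ a := by
      have h1 := one_add_mul_le_pow (a := -(1 / (N : ℝ))) (by
        have : 1 / (N : ℝ) ≤ 1 / 2 := one_div_le_one_div_of_le (by norm_num) hN2
        linarith) a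
      have h2 : (1 : ℝ) + -(1 / (N : ℝ)) = q := by rw [hq]; ring
      rw [h2] at h1
      have h3 : (a : ℝ) * -(1 / (N : ℝ)) = -(1 / 2) := by
        rw [ha0]
        have : (a : ℝ) ≠ 0 := by
          rintro h0
          rw [h0, mul_zero] at ha0
          linarith
        field_simp
      rw [h3] at h1
      linarith
    calc (1 : ℝ) / 4 = (1 / 2) * (1 / 2) := by norm_num
      _ ≤ q ^ a * q ^ a := mul_le_mul hb hb (by norm_num) (by positivity)
      _ = q ^ N := by rw [← pow_add, ha]; congr 1; ring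
  · -- odd case
    have ha0 : (N : ℝ) = 2 * a + 1 := by exact_mod_cast ha
    have ha1 : 1 ≤ a := by omega
    have ha1' : (1 : ℝ) ≤ a := by exact_mod_cast ha1
    have hb : ((a : ℝ) + 1) / (2 * a + 1) ≤ q ^ a := by
      have h1 := one_add_mul_le_pow (a := -(1 / (N : ℝ))) (by
        have : 1 / (N : ℝ) ≤ 1 / 2 := one_div_le_one_div_of_le (by norm_num) hN2
        linarith) a
      have h2 : (1 : ℝ) + -(1 / (N : ℝ)) = q := by rw [hq]; ring
      rw [h2] at h1
      have h3 : (1 : ℝ) + (a : ℝ) * -(1 / (N : ℝ)) = ((a : ℝ) + 1) / (2 * a + 1) := by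
        rw [ha0]
        field_simp
        ring
      rw [h3] at h1
      exact h1
    have hqv : q = 2 * a / (2 * a + 1) := by
      rw [hq, ha0]; field_simp; ring
    have e : q ^ N = q ^ a * q ^ a * q := by
      rw [← pow_add, ← pow_succ, ha]; congr 1; ring
    rw [e]
    have h4 : ((a : ℝ) + 1) / (2 * a + 1) * (((a : ℝ) + 1) / (2 * a + 1)) * q ≤
        q ^ a * q ^ a * q := by
      apply mul_le_mul_of_nonneg_right _ (by linarith)
      exact mul_le_mul hb hb (by positivity) (by positivity)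
    refine le_trans ?_ h4
    rw [hqv, div_mul_div_comm, div_mul_div_comm, div_le_div_iff₀ (by norm_num) (by positivity)]
    nlinarith [mul_nonneg (sub_nonneg.2 ha1') (sub_nonneg.2 ha1'), sq_nonneg ((a : ℝ)),
      mul_nonneg (mul_nonneg (sub_nonneg.2 ha1') (sub_nonneg.2 ha1')) (sub_nonneg.2 ha1')]

/-- The window function dominates the indicator of `n ≤ |K| < n ^ 2`. -/
lemma big_sub_le_ww {n : ℕ} (hn : 2 ≤ n) (x : V) (S : Finset (Sym2 V)) :
    big n x S - big (n ^ 2) x S ≤ 8 * ww (1 / (n : ℝ) ^ 2) (1 / n) x S := by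
  have hn0 : (0 : ℝ) < n := by positivity
  have hn1 : (1 : ℝ) ≤ n := by exact_mod_cast (by omega : 1 ≤ n)
  have e1 : 1 / (n : ℝ) ≤ 1 := by rw [div_le_one hn0]; exact hn1
  have e2 : 1 / (n : ℝ) ^ 2 ≤ 1 := by
    rw [div_le_one (by positivity)]; exact one_le_pow₀ hn1
  have hnn := ww_nonneg (h2 := 1 / (n : ℝ) ^ 2) (h3 := 1 / n) (by positivity) e2 (by positivity)
    e1 x S
  have hn2 : n ≤ n ^ 2 := by nlinarith
  unfold big
  by_cases h1 : n ≤ csz S x
  · by_cases h2 : n ^ 2 ≤ csz S x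
    · rw [if_pos h1, if_pos h2]; linarith
    · rw [if_pos h1, if_neg h2, sub_zero]
      have h3 : (1 : ℝ) / 4 ≤ (1 - 1 / (n : ℝ) ^ 2) ^ csz S x := by
        have h4 := pow_ge_quarter (N := n ^ 2) (by nlinarith)
        push_cast at h4
        refine h4.trans ?_
        apply pow_le_pow_of_le_one (by linarith) (by
          have : 0 < 1 / (n : ℝ) ^ 2 := by positivity
          linarith) (by omega)
      have h5 : (1 : ℝ) / 2 ≤ 1 - (1 - 1 / (n : ℝ)) ^ csz S x := by
        have h6 := gw_ge_half (n := n) (by omega) h1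
        unfold gw at h6
        exact h6
      unfold ww
      have h7 : (1 : ℝ) / 4 * (1 / 2) ≤
          (1 - 1 / (n : ℝ) ^ 2) ^ csz S x * (1 - (1 - 1 / (n : ℝ)) ^ csz S x) :=
        mul_le_mul h3 h5 (by norm_num) (by positivity)
      linarith
  · have h2 : ¬ n ^ 2 ≤ csz S x := fun h => h1 (hn2.trans h)
    rw [if_neg h1, if_neg h2]; linarith

/-- The drop estimate on finite sets, without decidability issues. -/
def CoreStmt (G : SimpleGraph V) [G.LocallyFinite] : Prop :=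
  ∀ (p0 c0 : ℝ), 0 < p0 → 0 < c0 → ∃ C : ℝ, 1 ≤ C ∧ ∀ (p : ℝ) (n J Γ r : ℕ), p0 ≤ p → p ≤ 1 →
    (∀ x, c0 ≤ phiB G n x p) → 2 ≤ n → 2 ≤ Γ → (Γ ^ (2 + 3 * J)) ^ 2 ≤ n →
    (∀ x, 8 * n ^ 3 ≤ (ballF G x r).card) → C * r ^ 2 * (1 + Real.log n) ≤ 2 ^ J →
    ∀ F P : Finset V, P ⊆ F → (∀ o ∈ P, ballF G o (n ^ 2) ⊆ F) →
      ∑ o ∈ P, Ex p (edgesIn G F) (ww (1 / (n : ℝ) ^ 2) (1 / n) o) ≤
        C * (1 / Real.sqrt n + (J + 1) * C ^ J / Γ) * F.card

open Classical in
/-- From averages over Foelner sets to every vertex. -/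
theorem drop_of_core [Infinite V] (hG : G.Connected) {R : Finset V}
    (hR : ∀ x : V, ∃ g : G ≃g G, g x ∈ R) (hAm : IsAmenable G) (hcore : CoreStmt G) :
    Stmts.DropStmt G := by
  intro p0 c0 hp0 hc0
  obtain ⟨C, hC1, hC⟩ := hcore p0 c0 hp0 hc0
  obtain ⟨c, hc, D, hcD⟩ := orbit_count hG hR
  have hC0 : 0 ≤ C := by linarith
  set C' : ℝ := max C (8 * C / c) with hC'
  have hCC' : C ≤ C' := le_max_left _ _
  have h8C : 8 * C / c ≤ C' := le_max_right _ _
  refine ⟨C', hC1.trans hCC', ?_⟩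
  intro p n J Γ r hp hp1 hphi hn hΓ hΓn hr hJ x
  have h0 : 0 ≤ p := hp0.le.trans hp
  have hn2 : n ≤ n ^ 2 := by nlinarith
  have hnR : (1 : ℝ) ≤ n := by exact_mod_cast (by omega : 1 ≤ n)
  have hlog : 0 ≤ Real.log n := Real.log_nonneg hnR
  have hJ' : C * r ^ 2 * (1 + Real.log n) ≤ 2 ^ J := by
    refine le_trans ?_ hJ
    apply mul_le_mul_of_nonneg_right _ (by linarith)
    exact mul_le_mul_of_nonneg_right hCC' (by positivity)
  have hmain := hC p n J Γ r hp hp1 hphi hn hΓ hΓn hr hJ'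
  obtain ⟨F, hFne, hF⟩ := foelner_deep hG hR hAm (D + n ^ 2) (δ := 1 / 2) (by norm_num)
  have hF0 : (0 : ℝ) < F.card := by exact_mod_cast hFne.card_pos
  set P := F.filter fun v => (∃ g : G ≃g G, g x = v) ∧ ballF G v (n ^ 2) ⊆ F with hP
  have hcP : c * F.card ≤ P.card := hcD x (n ^ 2) F hF
  set t := phiB G n x p - phiB G (n ^ 2) x p with ht
  have ht0 : 0 ≤ t := by
    have := phiB_anti hG h0 hp1 hn2 x
    rw [ht]; linarith
  have hsum := hmain F P (Finset.filter_subset _ _) (fun o ho => by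
    rw [hP, Finset.mem_filter] at ho
    exact ho.2.2)
  set E : ℝ := 1 / Real.sqrt n + (J + 1) * C ^ J / Γ with hE
  have hE0 : 0 ≤ E := by rw [hE]; positivity
  have hlow : c * F.card * t ≤ 8 * ∑ o ∈ P, Ex p (edgesIn G F) (ww (1 / (n : ℝ) ^ 2) (1 / n) o) := by
    calc c * F.card * t ≤ P.card * t := mul_le_mul_of_nonneg_right hcP ht0
      _ = ∑ v ∈ P, t := by rw [Finset.sum_const, nsmul_eq_mul]
      _ = ∑ v ∈ P, Ex p (edgesIn G F) (fun S => big n v S - big (n ^ 2) v S) := by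
          apply Finset.sum_congr rfl
          intro v hv
          rw [hP, Finset.mem_filter] at hv
          obtain ⟨_, ⟨g, rfl⟩, hb⟩ := hv
          rw [Ex_sub, Ex_big_local hG p ((ballF_mono G _ hn2).trans hb), Ex_big_local hG p hb,
            phiB_aut hG g h0 hp1, phiB_aut hG g h0 hp1, ht]
      _ ≤ ∑ v ∈ P, 8 * Ex p (edgesIn G F) (ww (1 / (n : ℝ) ^ 2) (1 / n) v) := by
          apply Finset.sum_le_sum
          intro v _
          rw [← Ex_const_mul]
          exact Ex_mono h0 hp1 fun S _ => big_sub_le_ww hn v S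
      _ = _ := by rw [Finset.mul_sum]
  have h9 : c * F.card * t ≤ 8 * (C * E * F.card) := hlow.trans (by linarith)
  have h10 : c * t ≤ 8 * C * E := by
    have h11 : F.card * (c * t) ≤ F.card * (8 * C * E) := by linarith
    exact le_of_mul_le_mul_left h11 hF0
  have h12 : t ≤ 8 * C / c * E := by
    rw [div_mul_eq_mul_div, le_div_iff₀ hc]
    linarith
  refine h12.trans ?_
  have h13 : E ≤ 1 / Real.sqrt n + (J + 1) * C' ^ J / Γ := by
    rw [hE]
    have : C ^ J ≤ C' ^ J := pow_le_pow_left₀ hC0 hCC' J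
    gcongr
  exact mul_le_mul h8C h13 hE0 (hC0.trans hCC')

end Vale.Agent.P151.QP
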