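import Vale.Agent.P151.QP.Stmts

/-!
# One step of the ladder

`LadderStmt` from the variance bound and the bounds for the gain.
-/

set_option autoImplicit false
set_option linter.unusedSectionVars false

open Finset SimpleGraph

namespace Vale.Agent.P151.QP

open Vale.Agent.P151

namespace Lad

section basic

variable {V : Type*} [DecidableEq V]

lemma gh_mono {s : ℝ} (h0 : 0 ≤ s) (h1 : s ≤ 1) (x : V) : Monotone (gh (V := V) s x) := by
  intro S T h
  unfold gh
  have := pow_le_pow_of_le_one (by linarith : (0 : ℝ) ≤ 1 - s) (by linarith) (csz_mono h x)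
  linarith

lemma gh_nonneg {s : ℝ} (h0 : 0 ≤ s) (h1 : s ≤ 1) (x : V) (S : Finset (Sym2 V)) :
    0 ≤ gh s x S := by
  unfold gh
  have := pow_le_one₀ (n := csz S x) (by linarith : (0 : ℝ) ≤ 1 - s) (by linarith)
  linarith

lemma gh_le_one {s : ℝ} (h1 : s ≤ 1) (x : V) (S : Finset (Sym2 V)) : gh s x S ≤ 1 := by
  unfold gh
  have := pow_nonneg (by linarith : (0 : ℝ) ≤ 1 - s) (csz S x)
  linarith

lemma gh_le_mul {s : ℝ} (h1 : s ≤ 1) (x : V) (S : Finset (Sym2 V)) :
    gh s x S ≤ s * csz S x := by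
  unfold gh
  have h2 := one_add_mul_le_pow (a := -s) (by linarith) (csz S x)
  have h3 : (1 + -s) = 1 - s := by ring
  rw [h3] at h2
  nlinarith

lemma Gf_mono {s : ℝ} (h0 : 0 ≤ s) (h1 : s ≤ 1) (F : Finset V) :
    Monotone (Gf (V := V) s F) := by
  intro S T h
  unfold Gf
  exact Finset.sum_le_sum fun x _ => gh_mono h0 h1 x h

lemma DD_nonneg (m : ℕ) (x y : V) (S : Finset (Sym2 V)) : 0 ≤ DD m x y S := I1_nonneg _
lemma DD_le_one (m : ℕ) (x y : V) (S : Finset (Sym2 V)) : DD m x y S ≤ 1 := I1_le_one _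

/-- The cluster of the midpoint is small or differs from one of the two clusters. -/
lemma DD_mid {s : ℝ} (h0 : 0 ≤ s) (h1 : s ≤ 1) (m : ℕ) (x y z : V) (S : Finset (Sym2 V)) :
    gh s z S * DD m x y S ≤ DD m x z S + DD m z y S + s * m := by
  have e1 := gh_le_one h1 z S
  have e0 := gh_nonneg h0 h1 z S
  have d1 := DD_nonneg m x z S
  have d2 := DD_nonneg m z y S
  have hsm : 0 ≤ s * m := mul_nonneg h0 (Nat.cast_nonneg m)
  by_cases hD : ¬ Cn S x y ∧ m ≤ csz S x ∧ m ≤ csz S y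
  · have hD1 : DD m x y S = 1 := I1_true hD
    rw [hD1, mul_one]
    by_cases hz : m ≤ csz S z
    · by_cases hxz : Cn S x z
      · have hzy : ¬ Cn S z y := fun h => hD.1 (hxz.trans h)
        have : DD m z y S = 1 := I1_true ⟨hzy, hz, hD.2.2⟩
        linarith
      · have : DD m x z S = 1 := I1_true ⟨hxz, hD.2.1, hz⟩
        linarith
    · have h2 := gh_le_mul h1 z S
      have h3 : (csz S z : ℝ) ≤ m := by exact_mod_cast (not_le.1 hz).le
      have h4 := mul_le_mul_of_nonneg_left h3 h0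
      linarith
  · have hD0 : DD m x y S = 0 := I1_false hD
    rw [hD0, mul_zero]
    linarith

end basic

lemma cov_le {ι : Type*} [DecidableEq ι] {p : ℝ} (h0 : 0 ≤ p) (h1 : p ≤ 1) (Λ : Finset ι)
    (X Y : Finset ι → ℝ) {l A B : ℝ} (hl : 0 < l)
    (hA : Ex p Λ (fun S => X S ^ 2) - (Ex p Λ X) ^ 2 ≤ A)
    (hB : Ex p Λ (fun S => Y S ^ 2) - (Ex p Λ Y) ^ 2 ≤ B) :
    Ex p Λ (fun S => X S * Y S) - Ex p Λ X * Ex p Λ Y ≤ (l * A + B / l) / 2 := by
  set x0 := Ex p Λ X with hx0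
  set y0 := Ex p Λ Y with hy0
  set c := l * x0 - y0 with hc
  have key : 0 ≤ Ex p Λ (fun S => (l * X S - Y S - c) ^ 2) := Ex_nonneg h0 h1 fun S _ => sq_nonneg _
  have e : Ex p Λ (fun S => (l * X S - Y S - c) ^ 2) =
      l ^ 2 * Ex p Λ (fun S => X S ^ 2) + Ex p Λ (fun S => Y S ^ 2)
        - 2 * l * Ex p Λ (fun S => X S * Y S) - 2 * l * c * x0 + 2 * c * y0 + c ^ 2 := by
    have e1 : (fun S => (l * X S - Y S - c) ^ 2) = fun S =>
        l ^ 2 * X S ^ 2 + (Y S ^ 2 + ((-(2 * l)) * (X S * Y S) + ((-(2 * l * c)) * X S +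
          ((2 * c) * Y S + c ^ 2)))) := by
      funext S; ring
    rw [e1, Ex_add, Ex_add, Ex_add, Ex_add, Ex_add, Ex_const_mul, Ex_const_mul, Ex_const_mul,
      Ex_const_mul, Ex_const, ← hx0, ← hy0]
    ring
  rw [e] at key
  set a := Ex p Λ (fun S => X S ^ 2)
  set b := Ex p Λ (fun S => Y S ^ 2)
  set q := Ex p Λ (fun S => X S * Y S)
  have k2 : 2 * l * (q - x0 * y0) ≤ l ^ 2 * A + B := by
    have := mul_le_mul_of_nonneg_left hA (sq_nonneg l)
    rw [hc] at key
    nlinarith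
  have k3 : (l * A + B / l) / 2 = (l ^ 2 * A + B) / (2 * l) := by
    field_simp
  rw [k3, le_div_iff₀ (by positivity)]
  linarith

section step

variable {V : Type*} [DecidableEq V]

lemma geom34 (I : ℕ) : ∑ i ∈ range I, (3 / 4 : ℝ) ^ i ≤ 4 := by
  have : ∑ i ∈ range I, (3 / 4 : ℝ) ^ i = 4 - 4 * (3 / 4) ^ I := by
    induction I with
    | zero => simp
    | succ I ih => rw [Finset.sum_range_succ, ih, pow_succ]; ring
  have h : (0 : ℝ) ≤ (3 / 4) ^ I := by positivity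
  linarith

lemma geom23 (I : ℕ) : ∑ i ∈ range I, (2 / 3 : ℝ) ^ i ≤ 3 := by
  have : ∑ i ∈ range I, (2 / 3 : ℝ) ^ i = 3 - 3 * (2 / 3) ^ I := by
    induction I with
    | zero => simp
    | succ I ih => rw [Finset.sum_range_succ, ih, pow_succ]; ring
  have h : (0 : ℝ) ≤ (2 / 3) ^ I := by positivity
  linarith

lemma Gf_eq (h : ℝ) (F : Finset V) (S : Finset (Sym2 V)) :
    ∑ x ∈ F, (1 : ℝ) * gh h x S = Gf h F S := by
  unfold Gf; simp only [one_mul]

/-- The sum of the covariances. -/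
lemma cov_sum (hVar : Stmts.VarStmt V) {p : ℝ} (h0 : 0 ≤ p) (h1 : p ≤ 1) {F U : Finset V}
    {Λ : Finset (Sym2 V)} (hUF : U ⊆ F) (hΛ : ∀ e ∈ Λ, ∀ v ∈ e, v ∈ F)
    {w : V → ℝ} (hw0 : ∀ z, 0 ≤ w z) (hw1 : ∀ z ∈ U, w z ≤ 1) {s : ℝ} (hs0 : 0 < s) (hs1 : s ≤ 1)
    {h : ℝ} (hh0 : 0 < h) (hh1 : h ≤ 1) {l : ℝ} (hl : 0 < l) :
    ∑ z ∈ U, w z * (Ex p Λ (fun S => gh s z S * Gf h F S) - Ex p Λ (gh s z) * Ex p Λ (Gf h F)) ≤
      (l * (4 / s * F.card) + (4 / h * F.card) / l) / 2 := by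
  classical
  set a : V → ℝ := fun z => if z ∈ U then w z else 0 with ha
  have ha0 : ∀ z, 0 ≤ a z := by
    intro z; simp only [ha]; split_ifs
    · exact hw0 z
    · exact le_rfl
  have ha1 : ∀ z, a z ≤ 1 := by
    intro z; simp only [ha]; split_ifs with hz
    · exact hw1 z hz
    · norm_num
  have v1 := hVar p h0 h1 s hs0 hs1 F Λ hΛ a ha0 ha1
  have v2 := hVar p h0 h1 h hh0 hh1 F Λ hΛ (fun _ => 1) (fun _ => by norm_num)
    (fun _ => le_rfl)
  simp only [Gf_eq] at v2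
  have key := cov_le h0 h1 Λ (fun S => ∑ x ∈ F, a x * gh s x S) (Gf h F) hl v1 v2
  refine le_trans (le_of_eq ?_) key
  have e1 : Ex p Λ (fun S => (∑ x ∈ F, a x * gh s x S) * Gf h F S) =
      ∑ x ∈ F, a x * Ex p Λ (fun S => gh s x S * Gf h F S) := by
    have : (fun S => (∑ x ∈ F, a x * gh s x S) * Gf h F S) =
        fun S => ∑ x ∈ F, a x * (gh s x S * Gf h F S) := by
      funext S; rw [Finset.sum_mul]
      exact Finset.sum_congr rfl fun x _ => by ring
    rw [this, Ex_sum]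
    exact Finset.sum_congr rfl fun x _ => Ex_const_mul _ _ _ _
  have e2 : Ex p Λ (fun S => ∑ x ∈ F, a x * gh s x S) = ∑ x ∈ F, a x * Ex p Λ (gh s x) := by
    rw [Ex_sum]
    exact Finset.sum_congr rfl fun x _ => Ex_const_mul _ _ _ _
  rw [e1, e2, Finset.sum_mul, ← Finset.sum_sub_distrib]
  have e3 : ∀ x ∈ F, a x * Ex p Λ (fun S => gh s x S * Gf h F S) -
      a x * Ex p Λ (gh s x) * Ex p Λ (Gf h F) =
      if x ∈ U then w x * (Ex p Λ (fun S => gh s x S * Gf h F S) -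
        Ex p Λ (gh s x) * Ex p Λ (Gf h F)) else 0 := by
    intro x _
    simp only [ha]
    split_ifs
    · ring
    · ring
  rw [Finset.sum_congr rfl e3, ← Finset.sum_filter]
  congr 1
  ext x
  rw [Finset.mem_filter]
  exact ⟨fun h => ⟨hUF h, h⟩, fun h => h.2⟩

/-- Harris for the glued configuration. -/
lemma harris_glue {p : ℝ} (h0 : 0 ≤ p) (h1 : p ≤ 1) (F : Finset V) (Λ : Finset (Sym2 V))
    {s : ℝ} (hs0 : 0 ≤ s) (hs1 : s ≤ 1) {h : ℝ} (hh0 : 0 ≤ h) (hh1 : h ≤ 1) (x y z : V) :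
    Ex p Λ (gh s z) * Ex p Λ (dG h F x y) ≤ Ex p Λ (fun S => gh s z S * dG h F x y S) +
      (Ex p Λ (fun S => gh s z S * Gf h F S) - Ex p Λ (gh s z) * Ex p Λ (Gf h F)) := by
  have hm : Monotone (fun S : Finset (Sym2 V) => Gf h F (insert s(x, y) S)) :=
    fun S T hST => Gf_mono hh0 hh1 F (Finset.insert_subset_insert _ hST)
  have hH := harris h0 h1 Λ (gh_mono hs0 hs1 z) hm
  have e1 : Ex p Λ (dG h F x y) = Ex p Λ (fun S => Gf h F (insert s(x, y) S)) -
      Ex p Λ (Gf h F) := by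
    rw [← Ex_sub]; rfl
  have e2 : Ex p Λ (fun S => gh s z S * dG h F x y S) =
      Ex p Λ (fun S => gh s z S * Gf h F (insert s(x, y) S)) -
      Ex p Λ (fun S => gh s z S * Gf h F S) := by
    rw [← Ex_sub]
    congr 1
    funext S
    unfold dG
    ring
  rw [e1, e2]
  linarith

lemma Ex_TH (p : ℝ) (Λ : Finset (Sym2 V)) (n I : ℕ) (F : Finset V) (x y : V) :
    Ex p Λ (TH n I F x y) = ∑ i ∈ range I, (1 / (2 ^ i * n : ℝ)) *
      Ex p Λ (dG (1 / (2 ^ i * n : ℝ)) F x y) := by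
  have : TH n I F x y = fun S => ∑ i ∈ range I, (1 / (2 ^ i * n : ℝ)) *
      dG (1 / (2 ^ i * n : ℝ)) F x y S := rfl
  rw [this, Ex_sum]
  exact Finset.sum_congr rfl fun i _ => Ex_const_mul _ _ _ _

lemma Ex_mul_TH (p : ℝ) (Λ : Finset (Sym2 V)) (n I : ℕ) (F : Finset V) (x y : V)
    (f : Finset (Sym2 V) → ℝ) :
    Ex p Λ (fun S => f S * TH n I F x y S) = ∑ i ∈ range I, (1 / (2 ^ i * n : ℝ)) *
      Ex p Λ (fun S => f S * dG (1 / (2 ^ i * n : ℝ)) F x y S) := by
  have : (fun S => f S * TH n I F x y S) = fun S => ∑ i ∈ range I, (1 / (2 ^ i * n : ℝ)) *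
      (f S * dG (1 / (2 ^ i * n : ℝ)) F x y S) := by
    funext S
    unfold TH
    rw [Finset.mul_sum]
    exact Finset.sum_congr rfl fun i _ => by ring
  rw [this, Ex_sum]
  exact Finset.sum_congr rfl fun i _ => Ex_const_mul _ _ _ _

/-- The lower bound for the correlation of the midpoint with the gain. -/
lemma gain_le (hVar : Stmts.VarStmt V) {p : ℝ} (h0 : 0 ≤ p) (h1 : p ≤ 1) {F U : Finset V}
    {Λ : Finset (Sym2 V)} (hUF : U ⊆ F) (hΛ : ∀ e ∈ Λ, ∀ v ∈ e, v ∈ F)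
    {A B : V → V → ℝ} (hA : Ker U A) (hB : Ker U B) {n : ℕ} (hn : 1 ≤ n) (I : ℕ)
    {s : ℝ} (hs0 : 0 < s) (hs1 : s ≤ 1) :
    ∑ x ∈ U, ∑ y ∈ U, ∑ z ∈ U, A x z * B z y * (Ex p Λ (gh s z) * Ex p Λ (TH n I F x y)) ≤
      ∑ x ∈ U, ∑ y ∈ U, ∑ z ∈ U, A x z * B z y * Ex p Λ (fun S => gh s z S * TH n I F x y S) +
      14 * F.card / Real.sqrt (s * n) := by
  have hn' : (0 : ℝ) < n := by exact_mod_cast hn
  have hsn : 0 < s * n := mul_pos hs0 hn'
  set r := Real.sqrt (s * n) with hr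
  have hr0 : 0 < r := Real.sqrt_pos.2 hsn
  have hr2 : r * r = s * n := Real.mul_self_sqrt hsn.le
  set h : ℕ → ℝ := fun i => 1 / (2 ^ i * n : ℝ) with hh
  have hh0 : ∀ i, 0 < h i := fun i => by simp only [hh]; positivity
  have hh1 : ∀ i, h i ≤ 1 := by
    intro i
    simp only [hh]
    rw [div_le_one (by positivity)]
    have e1 : (1 : ℝ) ≤ 2 ^ i := one_le_pow₀ (by norm_num)
    have e2 : (1 : ℝ) ≤ n := by exact_mod_cast hn
    nlinarith
  -- the weight of the midpoint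
  set w : V → ℝ := fun z => (∑ x ∈ U, A x z) * (∑ y ∈ U, B z y) with hw
  have hw0 : ∀ z, 0 ≤ w z := fun z => mul_nonneg (Finset.sum_nonneg fun x _ => hA.1 x z)
    (Finset.sum_nonneg fun y _ => hB.1 z y)
  have hw1 : ∀ z ∈ U, w z ≤ 1 := fun z hz => mul_le_one₀ (hA.2.2 z hz)
    (Finset.sum_nonneg fun y _ => hB.1 z y) (hB.2.1 z hz)
  set cv : ℕ → V → ℝ := fun i z => Ex p Λ (fun S => gh s z S * Gf (h i) F S) -
    Ex p Λ (gh s z) * Ex p Λ (Gf (h i) F) with hcv
  -- one term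
  have hterm : ∀ x y z : V, A x z * B z y * (Ex p Λ (gh s z) * Ex p Λ (TH n I F x y)) ≤
      A x z * B z y * Ex p Λ (fun S => gh s z S * TH n I F x y S) +
      ∑ i ∈ range I, h i * (A x z * B z y * cv i z) := by
    intro x y z
    have hAB : 0 ≤ A x z * B z y := mul_nonneg (hA.1 x z) (hB.1 z y)
    have h2 : Ex p Λ (gh s z) * Ex p Λ (TH n I F x y) ≤
        Ex p Λ (fun S => gh s z S * TH n I F x y S) + ∑ i ∈ range I, h i * cv i z := by
      rw [Ex_TH, Ex_mul_TH, Finset.mul_sum, ← Finset.sum_add_distrib]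
      apply Finset.sum_le_sum
      intro i _
      have h3 := harris_glue h0 h1 F Λ hs0.le hs1 (hh0 i).le (hh1 i) x y z
      have h4 := mul_le_mul_of_nonneg_left h3 (hh0 i).le
      simp only [hcv]
      calc Ex p Λ (gh s z) * (1 / (2 ^ i * n : ℝ) * Ex p Λ (dG (1 / (2 ^ i * n : ℝ)) F x y))
          = h i * (Ex p Λ (gh s z) * Ex p Λ (dG (h i) F x y)) := by simp only [hh]; ring
        _ ≤ h i * (Ex p Λ (fun S => gh s z S * dG (h i) F x y S) +
            (Ex p Λ (fun S => gh s z S * Gf (h i) F S) -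
              Ex p Λ (gh s z) * Ex p Λ (Gf (h i) F))) := h4
        _ = _ := by simp only [hh]; ring
    have h5 := mul_le_mul_of_nonneg_left h2 hAB
    refine h5.trans (le_of_eq ?_)
    rw [mul_add, Finset.mul_sum]
    congr 1
    exact Finset.sum_congr rfl fun i _ => by ring
  have hsum : ∑ x ∈ U, ∑ y ∈ U, ∑ z ∈ U, A x z * B z y *
      (Ex p Λ (gh s z) * Ex p Λ (TH n I F x y)) ≤
      ∑ x ∈ U, ∑ y ∈ U, ∑ z ∈ U, (A x z * B z y * Ex p Λ (fun S => gh s z S * TH n I F x y S) +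
      ∑ i ∈ range I, h i * (A x z * B z y * cv i z)) :=
    Finset.sum_le_sum fun x _ => Finset.sum_le_sum fun y _ => Finset.sum_le_sum fun z _ =>
      hterm x y z
  refine hsum.trans ?_
  simp only [Finset.sum_add_distrib]
  refine add_le_add le_rfl ?_
  -- the covariance part
  have e1 : ∑ x ∈ U, ∑ y ∈ U, ∑ z ∈ U, ∑ i ∈ range I, h i * (A x z * B z y * cv i z) =
      ∑ i ∈ range I, h i * ∑ z ∈ U, w z * cv i z := by
    calc ∑ x ∈ U, ∑ y ∈ U, ∑ z ∈ U, ∑ i ∈ range I, h i * (A x z * B z y * cv i z)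
        = ∑ x ∈ U, ∑ y ∈ U, ∑ i ∈ range I, ∑ z ∈ U, h i * (A x z * B z y * cv i z) := by
          refine Finset.sum_congr rfl fun x _ => Finset.sum_congr rfl fun y _ => ?_
          rw [Finset.sum_comm]
      _ = ∑ x ∈ U, ∑ i ∈ range I, ∑ y ∈ U, ∑ z ∈ U, h i * (A x z * B z y * cv i z) := by
          refine Finset.sum_congr rfl fun x _ => ?_
          rw [Finset.sum_comm]
      _ = ∑ i ∈ range I, ∑ x ∈ U, ∑ y ∈ U, ∑ z ∈ U, h i * (A x z * B z y * cv i z) := by
          rw [Finset.sum_comm]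
      _ = ∑ i ∈ range I, h i * ∑ z ∈ U, w z * cv i z := by
          refine Finset.sum_congr rfl fun i _ => ?_
          rw [Finset.mul_sum]
          calc ∑ x ∈ U, ∑ y ∈ U, ∑ z ∈ U, h i * (A x z * B z y * cv i z)
              = ∑ x ∈ U, ∑ z ∈ U, ∑ y ∈ U, h i * (A x z * B z y * cv i z) := by
                refine Finset.sum_congr rfl fun x _ => ?_
                rw [Finset.sum_comm]
            _ = ∑ z ∈ U, ∑ x ∈ U, ∑ y ∈ U, h i * (A x z * B z y * cv i z) := by
                rw [Finset.sum_comm]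
            _ = ∑ z ∈ U, h i * (w z * cv i z) := by
                refine Finset.sum_congr rfl fun z _ => ?_
                simp only [hw]
                rw [Finset.sum_mul_sum, Finset.sum_mul, Finset.mul_sum]
                refine Finset.sum_congr rfl fun x _ => ?_
                rw [Finset.sum_mul, Finset.mul_sum]
  rw [e1]
  have hI : ∀ i ∈ range I, h i * ∑ z ∈ U, w z * cv i z ≤
      (2 * F.card / r) * ((3 / 4 : ℝ) ^ i + (2 / 3) ^ i) := by
    intro i _
    have hl : 0 < r * (3 / 2 : ℝ) ^ i := by positivity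
    have h3 := cov_sum hVar h0 h1 hUF hΛ hw0 hw1 hs0 hs1 (hh0 i) (hh1 i) hl
    have h4 := mul_le_mul_of_nonneg_left h3 (hh0 i).le
    refine h4.trans (le_of_eq ?_)
    have e2 : (3 / 4 : ℝ) ^ i = (3 / 2) ^ i / 2 ^ i := by rw [← div_pow]; norm_num
    have e3 : (2 / 3 : ℝ) ^ i = 1 / (3 / 2) ^ i := by rw [← one_div_pow]; norm_num
    rw [e2, e3]
    simp only [hh]
    have hs_ne : s ≠ 0 := hs0.ne'
    have hn_ne : (n : ℝ) ≠ 0 := hn'.ne'
    have hr_ne : r ≠ 0 := hr0.ne'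
    have hp2 : (2 : ℝ) ^ i ≠ 0 := by positivity
    have hp3 : (3 / 2 : ℝ) ^ i ≠ 0 := by positivity
    have e4 : 1 / (2 ^ i * n : ℝ) * ((r * (3 / 2 : ℝ) ^ i * (4 / s * F.card) +
        4 / (1 / (2 ^ i * n : ℝ)) * F.card / (r * (3 / 2 : ℝ) ^ i)) / 2) =
        2 * F.card * (r * (3 / 2 : ℝ) ^ i / (2 ^ i * (s * n)) + 1 / (r * (3 / 2 : ℝ) ^ i)) := by
      field_simp
      ring
    rw [e4, ← hr2]
    field_simp
  calc ∑ i ∈ range I, h i * ∑ z ∈ U, w z * cv i z
      ≤ ∑ i ∈ range I, (2 * F.card / r) * ((3 / 4 : ℝ) ^ i + (2 / 3) ^ i) := Finset.sum_le_sum hI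
    _ = (2 * F.card / r) * (∑ i ∈ range I, (3 / 4 : ℝ) ^ i + ∑ i ∈ range I, (2 / 3 : ℝ) ^ i) := by
        rw [← Finset.mul_sum, Finset.sum_add_distrib]
    _ ≤ (2 * F.card / r) * (4 + 3) := by
        apply mul_le_mul_of_nonneg_left (add_le_add (geom34 I) (geom23 I)) (by positivity)
    _ = 14 * F.card / r := by ring

end step

end Lad

open Lad in
/-- **One step of the ladder.** -/
theorem ladder (V : Type*) [DecidableEq V] (hVar : Stmts.VarStmt V) (hUp : Stmts.ThUpStmt V)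
    (hLow : Stmts.ThLowStmt V) : Stmts.LadderStmt V := by
  classical
  refine ⟨896, by norm_num, ?_⟩
  intro p h0 h1 F U Λ hUF hΛ A B hA hB m n hm hn s c hs0 hs1 hc0 hc
  have hn' : (0 : ℝ) < n := by exact_mod_cast (show 0 < n by omega)
  have hsn : 0 < s * n := mul_pos hs0 hn'
  set r := Real.sqrt (s * n) with hr
  have hr0 : 0 < r := Real.sqrt_pos.2 hsn
  have hSF : ∀ S ⊆ Λ, ∀ e ∈ S, ∀ v ∈ e, v ∈ F := fun S hS e he => hΛ e (hS he)
  -- the number of scales
  obtain ⟨I, hI⟩ : ∃ I : ℕ, F.card < 2 ^ I * n := by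
    refine ⟨F.card, ?_⟩
    have h2 : F.card < 2 ^ F.card := Nat.lt_two_pow_self
    nlinarith
  have hTH0 : ∀ x ∈ U, ∀ y ∈ U, 0 ≤ Ex p Λ (TH n I F x y) := fun x hx y hy =>
    Ex_nonneg h0 h1 fun S hS => (hUp n I (by omega) F S (hSF S hS) x (hUF hx) y (hUF hy) m).1
  -- lower bound
  have low : c * ∑ x ∈ U, ∑ y ∈ U, kc U A B x y * PD p Λ n x y ≤
      64 * ∑ x ∈ U, ∑ y ∈ U, ∑ z ∈ U, A x z * B z y *
        (Ex p Λ (gh s z) * Ex p Λ (TH n I F x y)) := by
    rw [Finset.mul_sum, Finset.mul_sum]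
    apply Finset.sum_le_sum
    intro x hx
    rw [Finset.mul_sum, Finset.mul_sum]
    apply Finset.sum_le_sum
    intro y hy
    unfold kc
    rw [Finset.sum_mul, Finset.mul_sum, Finset.mul_sum]
    apply Finset.sum_le_sum
    intro z hz
    have h2 : PD p Λ n x y ≤ 64 * Ex p Λ (TH n I F x y) := by
      unfold PD
      rw [← Ex_const_mul]
      exact Ex_mono h0 h1 fun S hS => hLow n I hn F S (hSF S hS) hI x (hUF hx) y (hUF hy)
    have h3 := hc z hz
    have hAB : 0 ≤ A x z * B z y := mul_nonneg (hA.1 x z) (hB.1 z y)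
    have h4 : c * PD p Λ n x y ≤ 64 * (Ex p Λ (gh s z) * Ex p Λ (TH n I F x y)) := by
      have h5 := mul_le_mul_of_nonneg_left h2 hc0
      have h6 := mul_le_mul_of_nonneg_right h3 (hTH0 x hx y hy)
      linarith
    have h7 := mul_le_mul_of_nonneg_left h4 hAB
    calc c * (A x z * B z y * PD p Λ n x y) = A x z * B z y * (c * PD p Λ n x y) := by ring
      _ ≤ A x z * B z y * (64 * (Ex p Λ (gh s z) * Ex p Λ (TH n I F x y))) := h7
      _ = 64 * (A x z * B z y * (Ex p Λ (gh s z) * Ex p Λ (TH n I F x y))) := by ring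
  have mid := gain_le hVar h0 h1 hUF hΛ hA hB (n := n) (by omega) I hs0 hs1
  -- upper bound
  have up : ∑ x ∈ U, ∑ y ∈ U, ∑ z ∈ U,
      A x z * B z y * Ex p Λ (fun S => gh s z S * TH n I F x y S) ≤
      8 * (∑ x ∈ U, ∑ y ∈ U, A x y * PD p Λ m x y + ∑ x ∈ U, ∑ y ∈ U, B x y * PD p Λ m x y +
        (s * m + m / n) * F.card) := by
    have hpt : ∀ x ∈ U, ∀ y ∈ U, ∀ z ∈ U, A x z * B z y *
        Ex p Λ (fun S => gh s z S * TH n I F x y S) ≤
        A x z * B z y * (8 * PD p Λ m x z) + A x z * B z y * (8 * PD p Λ m z y) +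
        A x z * B z y * (8 * (s * m + m / n)) := by
      intro x hx y hy z _
      have hAB : 0 ≤ A x z * B z y := mul_nonneg (hA.1 x z) (hB.1 z y)
      rw [← mul_add, ← mul_add]
      apply mul_le_mul_of_nonneg_left _ hAB
      have h2 : Ex p Λ (fun S => gh s z S * TH n I F x y S) ≤
          Ex p Λ (fun S => (8 * DD m x z S + 8 * DD m z y S) + 8 * (s * m + m / n)) := by
        apply Ex_mono h0 h1
        intro S hS
        have h3 := (hUp n I (by omega) F S (hSF S hS) x (hUF hx) y (hUF hy) m)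
        have g0 := gh_nonneg hs0.le hs1 z S
        have g1 := gh_le_one hs1 z S
        have h4 := mul_le_mul_of_nonneg_left h3.2 g0
        have h5 := DD_mid hs0.le hs1 m x y z S
        have h6 : (0 : ℝ) ≤ m / n := by positivity
        have h7 : gh s z S * (m / n : ℝ) ≤ m / n := by nlinarith
        calc gh s z S * TH n I F x y S ≤ gh s z S * (8 * (DD m x y S + m / n)) := h4
          _ = 8 * (gh s z S * DD m x y S) + 8 * (gh s z S * (m / n : ℝ)) := by ring
          _ ≤ _ := by linarith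
      refine h2.trans (le_of_eq ?_)
      rw [Ex_add, Ex_add, Ex_const_mul, Ex_const_mul, Ex_const]
      rfl
    refine (Finset.sum_le_sum fun x hx => Finset.sum_le_sum fun y hy => Finset.sum_le_sum
      fun z hz => hpt x hx y hy z hz).trans ?_
    simp only [Finset.sum_add_distrib]
    have hPD : ∀ x y, 0 ≤ PD p Λ m x y := fun x y => Ex_nonneg h0 h1 fun S _ => DD_nonneg m x y S
    -- first term
    have t1 : ∑ x ∈ U, ∑ y ∈ U, ∑ z ∈ U, A x z * B z y * (8 * PD p Λ m x z) ≤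
        8 * ∑ x ∈ U, ∑ y ∈ U, A x y * PD p Λ m x y := by
      rw [Finset.mul_sum]
      apply Finset.sum_le_sum
      intro x _
      rw [Finset.sum_comm, Finset.mul_sum]
      apply Finset.sum_le_sum
      intro z hz
      have e : ∑ y ∈ U, A x z * B z y * (8 * PD p Λ m x z) =
          8 * (A x z * PD p Λ m x z) * ∑ y ∈ U, B z y := by
        rw [Finset.mul_sum]
        exact Finset.sum_congr rfl fun y _ => by ring
      rw [e]
      have h2 : 0 ≤ 8 * (A x z * PD p Λ m x z) :=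
        mul_nonneg (by norm_num) (mul_nonneg (hA.1 x z) (hPD x z))
      have h3 := mul_le_mul_of_nonneg_left (hB.2.1 z hz) h2
      linarith
    have t2 : ∑ x ∈ U, ∑ y ∈ U, ∑ z ∈ U, A x z * B z y * (8 * PD p Λ m z y) ≤
        8 * ∑ x ∈ U, ∑ y ∈ U, B x y * PD p Λ m x y := by
      calc ∑ x ∈ U, ∑ y ∈ U, ∑ z ∈ U, A x z * B z y * (8 * PD p Λ m z y)
          = ∑ z ∈ U, ∑ y ∈ U, ∑ x ∈ U, A x z * B z y * (8 * PD p Λ m z y) := by
            rw [Finset.sum_comm]
            calc ∑ y ∈ U, ∑ x ∈ U, ∑ z ∈ U, A x z * B z y * (8 * PD p Λ m z y)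
                = ∑ y ∈ U, ∑ z ∈ U, ∑ x ∈ U, A x z * B z y * (8 * PD p Λ m z y) :=
                  Finset.sum_congr rfl fun y _ => Finset.sum_comm
              _ = _ := Finset.sum_comm
        _ ≤ 8 * ∑ z ∈ U, ∑ y ∈ U, B z y * PD p Λ m z y := by
            rw [Finset.mul_sum]
            apply Finset.sum_le_sum
            intro z hz
            rw [Finset.mul_sum]
            apply Finset.sum_le_sum
            intro y _
            have e : ∑ x ∈ U, A x z * B z y * (8 * PD p Λ m z y) =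
                8 * (B z y * PD p Λ m z y) * ∑ x ∈ U, A x z := by
              rw [Finset.mul_sum]
              exact Finset.sum_congr rfl fun x _ => by ring
            rw [e]
            have h2 : 0 ≤ 8 * (B z y * PD p Λ m z y) :=
              mul_nonneg (by norm_num) (mul_nonneg (hB.1 z y) (hPD z y))
            have h3 := mul_le_mul_of_nonneg_left (hA.2.2 z hz) h2
            linarith
    have t3 : ∑ x ∈ U, ∑ y ∈ U, ∑ z ∈ U, A x z * B z y * (8 * (s * m + m / n)) ≤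
        8 * ((s * m + m / n) * F.card) := by
      have hK : (0 : ℝ) ≤ 8 * (s * m + m / n) := by positivity
      have h2 : ∀ x ∈ U, ∑ y ∈ U, ∑ z ∈ U, A x z * B z y * (8 * (s * m + m / n)) ≤
          8 * (s * m + m / n) := by
        intro x hx
        rw [Finset.sum_comm]
        calc ∑ z ∈ U, ∑ y ∈ U, A x z * B z y * (8 * (s * m + m / n))
            = ∑ z ∈ U, (8 * (s * m + m / n)) * A x z * ∑ y ∈ U, B z y := by
              refine Finset.sum_congr rfl fun z _ => ?_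
              rw [Finset.mul_sum]
              exact Finset.sum_congr rfl fun y _ => by ring
          _ ≤ ∑ z ∈ U, (8 * (s * m + m / n)) * A x z := by
              apply Finset.sum_le_sum
              intro z hz
              have h3 := mul_le_mul_of_nonneg_left (hB.2.1 z hz) (mul_nonneg hK (hA.1 x z))
              linarith
          _ = (8 * (s * m + m / n)) * ∑ z ∈ U, A x z := by rw [Finset.mul_sum]
          _ ≤ 8 * (s * m + m / n) := by
              have := mul_le_mul_of_nonneg_left (hA.2.1 x hx) hK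
              linarith
      calc ∑ x ∈ U, ∑ y ∈ U, ∑ z ∈ U, A x z * B z y * (8 * (s * m + m / n))
          ≤ ∑ x ∈ U, (8 * (s * m + m / n) : ℝ) := Finset.sum_le_sum h2
        _ = U.card * (8 * (s * m + m / n)) := by rw [Finset.sum_const, nsmul_eq_mul]
        _ ≤ F.card * (8 * (s * m + m / n)) := by
            apply mul_le_mul_of_nonneg_right _ hK
            exact_mod_cast Finset.card_le_card hUF
        _ = _ := by ring
    linarith
  set EA := ∑ x ∈ U, ∑ y ∈ U, A x y * PD p Λ m x y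
  set EB := ∑ x ∈ U, ∑ y ∈ U, B x y * PD p Λ m x y
  have hEA : 0 ≤ EA := Finset.sum_nonneg fun x _ => Finset.sum_nonneg fun y _ =>
    mul_nonneg (hA.1 x y) (Ex_nonneg h0 h1 fun S _ => DD_nonneg m x y S)
  have hEB : 0 ≤ EB := Finset.sum_nonneg fun x _ => Finset.sum_nonneg fun y _ =>
    mul_nonneg (hB.1 x y) (Ex_nonneg h0 h1 fun S _ => DD_nonneg m x y S)
  have hF0 : (0 : ℝ) ≤ F.card := Nat.cast_nonneg _
  have hmn : (0 : ℝ) ≤ s * m + m / n := by positivity
  have hfin : 14 * (F.card : ℝ) / r = 14 * (1 / r * F.card) := by ring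
  have hr1 : 0 ≤ 1 / r * (F.card : ℝ) := by positivity
  have hmnF : 0 ≤ (s * m + m / n : ℝ) * F.card := mul_nonneg hmn hF0
  calc c * ∑ x ∈ U, ∑ y ∈ U, kc U A B x y * PD p Λ n x y
      ≤ 64 * (8 * (EA + EB + (s * m + m / n) * F.card) + 14 * F.card / r) := by
        linarith
    _ ≤ 896 * (EA + EB + (s * m + m / n + 1 / r) * F.card) := by
        rw [hfin]
        nlinarith

end Vale.Agent.P151.QP
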