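import Vale.Agent.P151.QP.Stmts
import Vale.Agent.P151.H800.Cov
import Vale.Agent.P151.H800.Real

/-!
# The first step of the ladder
-/

set_option autoImplicit false
set_option linter.unusedSectionVars false

open Finset SimpleGraph

namespace Vale.Agent.P151.QP

open Vale.Agent.P151 Vale.Agent.P151.H800

universe u
variable {V : Type u} [DecidableEq V]

lemma gh_mono {h : ℝ} (h0 : 0 ≤ h) (h1 : h ≤ 1) (x : V) : Monotone (gh h x) := by
  intro S T hST
  unfold gh
  have := pow_le_pow_of_le_one (by linarith : (0 : ℝ) ≤ 1 - h) (by linarith) (csz_mono hST x)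
  linarith

lemma Gf_mono {h : ℝ} (h0 : 0 ≤ h) (h1 : h ≤ 1) (F : Finset V) : Monotone (Gf h F) := by
  intro S T hST
  exact Finset.sum_le_sum fun x _ => gh_mono h0 h1 x hST

/-- The gain at an edge. -/
noncomputable def THe (n I : ℕ) (F : Finset V) (e : Sym2 V) (S : Finset (Sym2 V)) : ℝ :=
  ∑ i ∈ Finset.range I, hd n i * (Gf (hd n i) F (insert e S) - Gf (hd n i) F S)

lemma TH_eq (n I : ℕ) (F : Finset V) (b y : V) (S : Finset (Sym2 V)) :
    TH n I F b y S = THe n I F s(b, y) S := rfl

lemma THe_nonneg {n : ℕ} (hn : 1 ≤ n) (I : ℕ) (F : Finset V) (e : Sym2 V)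
    (S : Finset (Sym2 V)) : 0 ≤ THe n I F e S := by
  apply Finset.sum_nonneg
  intro i _
  apply mul_nonneg (hd_pos hn i).le
  have := Gf_mono (hd_pos hn i).le (hd_le_one hn i) F (Finset.subset_insert e S)
  linarith

/-- The sum over the edges of the gains is a covariance. -/
lemma sum_THe_le (hV : Stmts.VarStmt V) {p : ℝ} (h0 : 0 ≤ p) (h1 : p ≤ 1) {F : Finset V}
    {Λ : Finset (Sym2 V)} (hΛF : ∀ e ∈ Λ, ∀ v ∈ e, v ∈ F) {d : ℕ} (hd1 : 1 ≤ d)
    (hcard : Λ.card ≤ d * F.card) {n : ℕ} (hn : 1 ≤ n) (I : ℕ) :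
    p * ∑ e ∈ Λ, Ex p Λ (THe n I F e) ≤ 8 * d * F.card / Real.sqrt n := by
  have hi : ∀ i, p * ∑ e ∈ Λ, (Ex p Λ (fun S => Gf (hd n i) F (insert e S)) -
      Ex p Λ (Gf (hd n i) F)) ≤ Real.sqrt (Λ.card) * Real.sqrt (4 / hd n i * F.card) := by
    intro i
    have e1 : p * ∑ e ∈ Λ, (Ex p Λ (fun S => Gf (hd n i) F (insert e S)) -
        Ex p Λ (Gf (hd n i) F)) =
        Ex p Λ (fun S => NN Λ S * Gf (hd n i) F S) - Ex p Λ (NN Λ) * Ex p Λ (Gf (hd n i) F) := by
      rw [Ex_NN_mul, Ex_NN, Finset.mul_sum]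
      simp_rw [mul_sub]
      rw [Finset.sum_sub_distrib, Finset.sum_const, nsmul_eq_mul]
      ring
    rw [e1]
    apply cov_le_sqrt h0 h1
    · refine (var_NN h0 h1 Λ).trans ?_
      have : (0 : ℝ) ≤ Λ.card := Nat.cast_nonneg _
      nlinarith
    · have h2 := hV p h0 h1 (hd n i) (hd_pos hn i) (hd_le_one hn i) F Λ hΛF (fun _ => 1)
        (fun _ => zero_le_one) (fun _ => le_rfl)
      simp only [one_mul] at h2
      exact h2
  have hsq : 0 < Real.sqrt (n : ℝ) := Real.sqrt_pos.2 (by exact_mod_cast hn)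
  have hF0 : (0 : ℝ) ≤ F.card := Nat.cast_nonneg _
  have hd0 : (1 : ℝ) ≤ d := by exact_mod_cast hd1
  have hΛ : Real.sqrt (Λ.card) ≤ d * Real.sqrt F.card := by
    rw [← Real.sqrt_sq (by linarith : (0 : ℝ) ≤ d), ← Real.sqrt_mul (by positivity)]
    apply Real.sqrt_le_sqrt
    have h3 : (Λ.card : ℝ) ≤ d * F.card := by exact_mod_cast hcard
    nlinarith
  calc p * ∑ e ∈ Λ, Ex p Λ (THe n I F e)
      = ∑ i ∈ Finset.range I, hd n i * (p * ∑ e ∈ Λ,
          (Ex p Λ (fun S => Gf (hd n i) F (insert e S)) - Ex p Λ (Gf (hd n i) F))) := by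
        unfold THe
        simp_rw [Ex_sum, Ex_const_mul, Ex_sub]
        rw [Finset.sum_comm, Finset.mul_sum]
        apply Finset.sum_congr rfl
        intro i _
        rw [← Finset.mul_sum]
        ring
    _ ≤ ∑ i ∈ Finset.range I, 2 * d * F.card * Real.sqrt (hd n i) := by
        apply Finset.sum_le_sum
        intro i _
        have hpos := hd_pos hn i
        have hs : Real.sqrt (4 / hd n i * F.card) =
            2 * Real.sqrt F.card / Real.sqrt (hd n i) := by
          rw [div_mul_eq_mul_div, Real.sqrt_div (by positivity), Real.sqrt_mul (by norm_num)]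
          congr 2
          rw [show (4 : ℝ) = 2 ^ 2 by norm_num, Real.sqrt_sq (by norm_num)]
        have hq : 0 < Real.sqrt (hd n i) := Real.sqrt_pos.2 hpos
        have hqq : Real.sqrt (hd n i) * Real.sqrt (hd n i) = hd n i := Real.mul_self_sqrt hpos.le
        have hFF : Real.sqrt (F.card : ℝ) * Real.sqrt F.card = F.card := Real.mul_self_sqrt hF0
        calc hd n i * (p * ∑ e ∈ Λ, (Ex p Λ (fun S => Gf (hd n i) F (insert e S)) -
              Ex p Λ (Gf (hd n i) F)))
            ≤ hd n i * (Real.sqrt (Λ.card) * Real.sqrt (4 / hd n i * F.card)) :=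
              mul_le_mul_of_nonneg_left (hi i) hpos.le
          _ ≤ hd n i * ((d * Real.sqrt F.card) * (2 * Real.sqrt F.card / Real.sqrt (hd n i))) := by
              rw [hs]
              apply mul_le_mul_of_nonneg_left _ hpos.le
              exact mul_le_mul_of_nonneg_right hΛ (by positivity)
          _ = 2 * d * (Real.sqrt F.card * Real.sqrt F.card) *
              (hd n i / Real.sqrt (hd n i)) := by ring
          _ = 2 * d * F.card * Real.sqrt (hd n i) := by
              rw [hFF]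
              congr 1
              rw [div_eq_iff hq.ne', hqq]
    _ = 2 * d * F.card * ∑ i ∈ Finset.range I, Real.sqrt (hd n i) := by rw [Finset.mul_sum]
    _ ≤ 2 * d * F.card * (4 / Real.sqrt n) :=
        mul_le_mul_of_nonneg_left (sum_sqrt_hd_le hn I) (by positivity)
    _ = 8 * d * F.card / Real.sqrt n := by ring

/-- (L0) the first step of the ladder. -/
theorem ladder0 (hV : Stmts.VarStmt V) (hT : Stmts.ThLowStmt V) : Stmts.Ladder0Stmt V := by
  classical
  refine ⟨1024, by norm_num, ?_⟩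
  intro p h0 h1 F U Λ d hd1 hUF hΛF hcard A hA0 hA1 hAe n hn
  have hn1 : 1 ≤ n := by omega
  set I := F.card with hI
  have hFI : F.card < 2 ^ I * n := by
    have h2 : F.card < 2 ^ I := Nat.lt_two_pow_self
    nlinarith
  have hPD0 : ∀ x y, 0 ≤ PD p Λ n x y := fun x y => Ex_nonneg h0 h1 fun S _ => I1_nonneg _
  set P := (F ×ˢ F).filter (fun q => s(q.1, q.2) ∈ Λ) with hP
  -- reduction to edges
  have step1 : ∑ x ∈ U, ∑ y ∈ U, A x y * PD p Λ n x y ≤ ∑ q ∈ P, PD p Λ n q.1 q.2 := by
    have e1 : ∑ x ∈ U, ∑ y ∈ U, A x y * PD p Λ n x y ≤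
        ∑ x ∈ F, ∑ y ∈ F, (if s(x, y) ∈ Λ then PD p Λ n x y else 0) := by
      have hterm : ∀ x y, A x y * PD p Λ n x y ≤ if s(x, y) ∈ Λ then PD p Λ n x y else 0 := by
        intro x y
        by_cases h2 : s(x, y) ∈ Λ
        · rw [if_pos h2]
          calc A x y * PD p Λ n x y ≤ 1 * PD p Λ n x y :=
                mul_le_mul_of_nonneg_right (hA1 x y) (hPD0 x y)
            _ = _ := one_mul _
        · rw [if_neg h2]
          by_cases hxy : x = y
          · subst hxy
            have h3 : PD p Λ n x x = 0 := by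
              unfold PD DD
              rw [Ex_congr p (G := fun _ => (0 : ℝ))]
              · simp
              · intro S _
                exact I1_false (fun h => h.1 (Cn.refl S x))
            rw [h3, mul_zero]
          · have h3 : A x y = 0 := by
              by_contra h4
              exact h2 (hAe x y hxy h4)
            rw [h3, zero_mul]
      have hnn : ∀ x y, 0 ≤ if s(x, y) ∈ Λ then PD p Λ n x y else 0 := by
        intro x y
        split_ifs
        · exact hPD0 x y
        · exact le_rfl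
      calc ∑ x ∈ U, ∑ y ∈ U, A x y * PD p Λ n x y
          ≤ ∑ x ∈ U, ∑ y ∈ U, (if s(x, y) ∈ Λ then PD p Λ n x y else 0) :=
            Finset.sum_le_sum fun x _ => Finset.sum_le_sum fun y _ => hterm x y
        _ ≤ ∑ x ∈ U, ∑ y ∈ F, (if s(x, y) ∈ Λ then PD p Λ n x y else 0) :=
            Finset.sum_le_sum fun x _ =>
              Finset.sum_le_sum_of_subset_of_nonneg hUF fun y _ _ => hnn x y
        _ ≤ ∑ x ∈ F, ∑ y ∈ F, (if s(x, y) ∈ Λ then PD p Λ n x y else 0) :=
            Finset.sum_le_sum_of_subset_of_nonneg hUF fun x _ _ =>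
              Finset.sum_nonneg fun y _ => hnn x y
    refine e1.trans (le_of_eq ?_)
    rw [hP, Finset.sum_filter, Finset.sum_product]
  have step2 : ∀ q ∈ P, PD p Λ n q.1 q.2 ≤ 64 * Ex p Λ (THe n I F s(q.1, q.2)) := by
    intro q hq
    rw [hP, Finset.mem_filter, Finset.mem_product] at hq
    rw [← Ex_const_mul]
    apply Ex_mono h0 h1
    intro S hS
    exact hT n I hn F S (fun e he v hv => hΛF e (hS he) v hv) hFI q.1 hq.1.1 q.2 hq.1.2
  have step3 : ∑ q ∈ P, Ex p Λ (THe n I F s(q.1, q.2)) ≤ 2 * ∑ e ∈ Λ, Ex p Λ (THe n I F e) := by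
    have hmaps : ∀ q ∈ P, s(q.1, q.2) ∈ Λ := fun q hq => (Finset.mem_filter.1 hq).2
    rw [← Finset.sum_fiberwise_of_maps_to hmaps, Finset.mul_sum]
    apply Finset.sum_le_sum
    intro e _
    have h2 : ∑ q ∈ P with s(q.1, q.2) = e, Ex p Λ (THe n I F s(q.1, q.2)) =
        ∑ q ∈ P with s(q.1, q.2) = e, Ex p Λ (THe n I F e) := by
      apply Finset.sum_congr rfl
      intro q hq
      rw [(Finset.mem_filter.1 hq).2]
    rw [h2, Finset.sum_const, nsmul_eq_mul]
    apply mul_le_mul_of_nonneg_right _ (Ex_nonneg h0 h1 fun S _ => THe_nonneg hn1 I F e S)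
    have h3 : (P.filter (fun q => s(q.1, q.2) = e)).card ≤ 2 := by
      induction e with
      | _ a b =>
        calc (P.filter (fun q => s(q.1, q.2) = s(a, b))).card
            ≤ ({(a, b), (b, a)} : Finset (V × V)).card := by
              apply Finset.card_le_card
              intro q hq
              have := (Finset.mem_filter.1 hq).2
              rw [Sym2.eq_iff] at this
              rw [Finset.mem_insert, Finset.mem_singleton, Prod.ext_iff, Prod.ext_iff]
              exact this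
          _ ≤ 2 := Finset.card_le_two
    exact_mod_cast h3
  have step4 := sum_THe_le hV h0 h1 hΛF hd1 hcard hn1 I
  calc p * ∑ x ∈ U, ∑ y ∈ U, A x y * PD p Λ n x y
      ≤ p * ∑ q ∈ P, PD p Λ n q.1 q.2 := mul_le_mul_of_nonneg_left step1 h0
    _ ≤ p * ∑ q ∈ P, 64 * Ex p Λ (THe n I F s(q.1, q.2)) :=
        mul_le_mul_of_nonneg_left (Finset.sum_le_sum step2) h0
    _ = p * (64 * ∑ q ∈ P, Ex p Λ (THe n I F s(q.1, q.2))) := by
        congr 1
        rw [Finset.mul_sum]
    _ ≤ p * (64 * (2 * ∑ e ∈ Λ, Ex p Λ (THe n I F e))) := by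
        apply mul_le_mul_of_nonneg_left _ h0
        linarith
    _ = 128 * (p * ∑ e ∈ Λ, Ex p Λ (THe n I F e)) := by ring
    _ ≤ 128 * (8 * d * F.card / Real.sqrt n) := by linarith
    _ = 1024 * d * F.card / Real.sqrt n := by ring

end Vale.Agent.P151.QP
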