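import Vale.Agent.P151.QP.Stmts

/-!
# The gain of the dyadic functional: `ThUpStmt`, `ThLowStmt`
-/

set_option autoImplicit false

open Finset

namespace Vale.Agent.P151.QP.Th

open Vale.Agent.P151 Vale.Agent.P151.QP

section Real

/-- `1 - (1 - 1/n)^k` -/
noncomputable def gq (n : ℕ) (k : ℕ) : ℝ := 1 - (1 - 1 / (n : ℝ)) ^ k

/-- contribution of a cluster of size `s` -/
noncomputable def wt (m I s : ℕ) : ℝ :=
  ∑ i ∈ range I, 1 / (((2 ^ i * m : ℕ) : ℝ)) * (s * gq (2 ^ i * m) s)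

/-- change of the functional when clusters of sizes `s` and `t` are glued -/
noncomputable def Dl (m I s t : ℕ) : ℝ := wt m I (s + t) - wt m I s - wt m I t

lemma q_nonneg {n : ℕ} (hn : 1 ≤ n) : (0 : ℝ) ≤ 1 - 1 / (n : ℝ) := by
  have h : (1 : ℝ) ≤ n := by exact_mod_cast hn
  have h2 : 1 / (n : ℝ) ≤ 1 := by
    rw [div_le_one (by linarith)]; exact h
  linarith

lemma q_le_one (n : ℕ) : 1 - 1 / (n : ℝ) ≤ 1 := by
  have : (0 : ℝ) ≤ 1 / n := by positivity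
  linarith

lemma q_pow_le_exp {n : ℕ} (hn : 1 ≤ n) (k : ℕ) :
    (1 - 1 / (n : ℝ)) ^ k ≤ Real.exp (-((k : ℝ) / n)) := by
  have h3 : 1 - 1 / (n : ℝ) ≤ Real.exp (-(1 / (n : ℝ))) := by
    have := Real.add_one_le_exp (-(1 / (n : ℝ)))
    linarith
  calc (1 - 1 / (n : ℝ)) ^ k ≤ (Real.exp (-(1 / (n : ℝ)))) ^ k :=
        pow_le_pow_left₀ (q_nonneg hn) h3 k
    _ = Real.exp (-((k : ℝ) / n)) := by
        rw [← Real.exp_nat_mul]
        congr 1
        ring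

lemma exp_le_q_pow {n : ℕ} (hn : 2 ≤ n) (k : ℕ) :
    Real.exp (-(2 * (k : ℝ) / n)) ≤ (1 - 1 / (n : ℝ)) ^ k := by
  have hn' : (2 : ℝ) ≤ n := by exact_mod_cast hn
  have h3 : Real.exp (-(2 / (n : ℝ))) ≤ 1 - 1 / (n : ℝ) := by
    rw [Real.exp_neg, inv_le_comm₀ (Real.exp_pos _) (by
      have : 1 / (n : ℝ) ≤ 1 / 2 := by
        apply one_div_le_one_div_of_le (by norm_num) hn'
      linarith)]
    have h4 := Real.add_one_le_exp (2 / (n : ℝ))
    refine le_trans ?_ h4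
    rw [inv_le_iff_one_le_mul₀ (by
      have : 1 / (n : ℝ) ≤ 1 / 2 := by
        apply one_div_le_one_div_of_le (by norm_num) hn'
      linarith)]
    have h5 : (2 / (n : ℝ) + 1) * (1 - 1 / (n : ℝ)) = 1 + 1 / n * (1 - 2 / n) := by ring
    rw [h5]
    have h6 : 2 / (n : ℝ) ≤ 1 := by rw [div_le_one (by linarith)]; exact hn'
    have h7 : 0 ≤ 1 / (n : ℝ) * (1 - 2 / n) := mul_nonneg (by positivity) (by linarith)
    linarith
  calc Real.exp (-(2 * (k : ℝ) / n)) = (Real.exp (-(2 / (n : ℝ)))) ^ k := by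
        rw [← Real.exp_nat_mul]
        congr 1
        ring
    _ ≤ _ := pow_le_pow_left₀ (Real.exp_pos _).le h3 k

/-- telescoping bound -/
lemma sum_dyadic {x : ℝ} (hx : 0 ≤ x) (I : ℕ) :
    ∑ i ∈ range I, x / 2 ^ i * Real.exp (-(x / 2 ^ i)) ≤ 2 := by
  have key : ∀ y : ℝ, 0 ≤ y → y * Real.exp (-y) ≤ 2 * (Real.exp (-(y / 2)) - Real.exp (-y)) := by
    intro y hy
    have h1 : Real.exp (-(y / 2)) = Real.exp (-y) * Real.exp (y / 2) := by
      rw [← Real.exp_add]; congr 1; ring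
    rw [h1]
    have h2 := Real.add_one_le_exp (y / 2)
    have h3 := Real.exp_pos (-y)
    nlinarith
  have hind : ∀ I : ℕ, ∑ i ∈ range I, x / 2 ^ i * Real.exp (-(x / 2 ^ i)) ≤
      2 * (Real.exp (-(x / 2 ^ I)) - Real.exp (-x)) := by
    intro I
    induction I with
    | zero => simp
    | succ I ih =>
      rw [sum_range_succ]
      have h1 := key (x / 2 ^ I) (by positivity)
      have h2 : x / 2 ^ I / 2 = x / 2 ^ (I + 1) := by rw [pow_succ]; field_simp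
      rw [h2] at h1
      linarith
  have h1 := hind I
  have h2 : Real.exp (-(x / 2 ^ I)) ≤ 1 := by
    rw [Real.exp_le_one_iff]
    have : 0 ≤ x / 2 ^ I := by positivity
    linarith
  have h3 := Real.exp_pos (-x)
  linarith

/-- the change in terms of the powers -/
lemma Dl_eq (m I s t : ℕ) : Dl m I s t =
    ∑ i ∈ range I, ((s : ℝ) / ((2 ^ i * m : ℕ) : ℝ) * (1 - 1 / (((2 ^ i * m : ℕ) : ℝ))) ^ s *
        gq (2 ^ i * m) t +
      (t : ℝ) / ((2 ^ i * m : ℕ) : ℝ) * (1 - 1 / (((2 ^ i * m : ℕ) : ℝ))) ^ t *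
        gq (2 ^ i * m) s) := by
  unfold Dl wt gq
  rw [← sum_sub_distrib, ← sum_sub_distrib]
  apply sum_congr rfl
  intro i _
  rw [pow_add]
  push_cast
  ring

lemma gq_nonneg {n : ℕ} (hn : 1 ≤ n) (k : ℕ) : 0 ≤ gq n k := by
  unfold gq
  have := pow_le_one₀ (n := k) (q_nonneg hn) (q_le_one n)
  linarith

lemma gq_le_one {n : ℕ} (hn : 1 ≤ n) (k : ℕ) : gq n k ≤ 1 := by
  unfold gq
  have := pow_nonneg (q_nonneg hn) k
  linarith

lemma gq_le_div {n : ℕ} (hn : 1 ≤ n) (k : ℕ) : gq n k ≤ k / n := by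
  unfold gq
  have h1 : (-2 : ℝ) ≤ -(1 / (n : ℝ)) := by
    have := q_nonneg hn
    linarith
  have := one_add_mul_le_pow h1 k
  have h2 : (1 - 1 / (n : ℝ)) = 1 + -(1 / (n : ℝ)) := by ring
  rw [h2]
  have h3 : (k : ℝ) * -(1 / n) = -(k / n) := by ring
  rw [h3] at this
  linarith

lemma pos_n {m : ℕ} (hm : 1 ≤ m) (i : ℕ) : 1 ≤ 2 ^ i * m :=
  Nat.one_le_iff_ne_zero.2 (Nat.mul_ne_zero (by positivity) (by omega))

lemma term_nonneg {m : ℕ} (hm : 1 ≤ m) (i s t : ℕ) :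
    0 ≤ (s : ℝ) / ((2 ^ i * m : ℕ) : ℝ) * (1 - 1 / (((2 ^ i * m : ℕ) : ℝ))) ^ s *
        gq (2 ^ i * m) t :=
  mul_nonneg (mul_nonneg (by positivity) (pow_nonneg (q_nonneg (pos_n hm i)) _))
    (gq_nonneg (pos_n hm i) _)

lemma Dl_nonneg {m : ℕ} (hm : 1 ≤ m) (I s t : ℕ) : 0 ≤ Dl m I s t := by
  rw [Dl_eq]
  exact sum_nonneg fun i _ => add_nonneg (term_nonneg hm i s t) (term_nonneg hm i t s)

lemma Dl_comm (m I s t : ℕ) : Dl m I s t = Dl m I t s := by
  unfold Dl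
  rw [add_comm s t]
  ring

lemma sum_xq {m : ℕ} (hm : 1 ≤ m) (I s : ℕ) :
    ∑ i ∈ range I, (s : ℝ) / ((2 ^ i * m : ℕ) : ℝ) * (1 - 1 / (((2 ^ i * m : ℕ) : ℝ))) ^ s ≤ 2 := by
  refine le_trans (sum_le_sum fun i _ => ?_) (sum_dyadic (x := (s : ℝ) / m) (by positivity) I)
  have h1 : (s : ℝ) / m / 2 ^ i = (s : ℝ) / ((2 ^ i * m : ℕ) : ℝ) := by
    push_cast
    rw [div_div, mul_comm (m : ℝ)]
  rw [h1]
  exact mul_le_mul_of_nonneg_left (q_pow_le_exp (pos_n hm i) s) (by positivity)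

lemma Dl_le_four {m : ℕ} (hm : 1 ≤ m) (I s t : ℕ) : Dl m I s t ≤ 4 := by
  rw [Dl_eq, sum_add_distrib]
  have h1 : ∀ s t : ℕ, ∑ i ∈ range I, (s : ℝ) / ((2 ^ i * m : ℕ) : ℝ) *
      (1 - 1 / (((2 ^ i * m : ℕ) : ℝ))) ^ s * gq (2 ^ i * m) t ≤ 2 := by
    intro s t
    refine le_trans (sum_le_sum fun i _ => ?_) (sum_xq hm I s)
    have h2 : 0 ≤ (s : ℝ) / ((2 ^ i * m : ℕ) : ℝ) * (1 - 1 / (((2 ^ i * m : ℕ) : ℝ))) ^ s :=
      mul_nonneg (by positivity) (pow_nonneg (q_nonneg (pos_n hm i)) _)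
    have h3 := gq_le_one (pos_n hm i) t
    nlinarith
  have a := h1 s t
  have b := h1 t s
  linarith

lemma sum_inv_dyadic {m : ℕ} (hm : 1 ≤ m) (I : ℕ) :
    ∑ i ∈ range I, (1 : ℝ) / ((2 ^ i * m : ℕ) : ℝ) ≤ 2 / m := by
  have hm' : (0 : ℝ) < m := by exact_mod_cast hm
  have h : ∀ I : ℕ, ∑ i ∈ range I, (1 : ℝ) / ((2 ^ i * m : ℕ) : ℝ) = 2 / m - 2 / (2 ^ I * m) := by
    intro I
    induction I with
    | zero => simp
    | succ I ih =>
      rw [sum_range_succ, ih]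
      push_cast
      rw [pow_succ]
      field_simp
      ring
  rw [h]
  have : 0 ≤ 2 / ((2 : ℝ) ^ I * m) := by positivity
  linarith

lemma Dl_le_left {m : ℕ} (hm : 1 ≤ m) (I s t : ℕ) : Dl m I s t ≤ 4 * (s / m) := by
  have hm' : (0 : ℝ) < m := by exact_mod_cast hm
  rw [Dl_eq, sum_add_distrib]
  have a : ∑ i ∈ range I, (s : ℝ) / ((2 ^ i * m : ℕ) : ℝ) *
      (1 - 1 / (((2 ^ i * m : ℕ) : ℝ))) ^ s * gq (2 ^ i * m) t ≤ 2 * (s / m) := by
    have h1 : ∑ i ∈ range I, (s : ℝ) / ((2 ^ i * m : ℕ) : ℝ) *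
      (1 - 1 / (((2 ^ i * m : ℕ) : ℝ))) ^ s * gq (2 ^ i * m) t ≤
      ∑ i ∈ range I, s * ((1 : ℝ) / ((2 ^ i * m : ℕ) : ℝ)) := by
      apply sum_le_sum
      intro i _
      have h2 := pow_le_one₀ (n := s) (q_nonneg (pos_n hm i)) (q_le_one _)
      have h2' := pow_nonneg (q_nonneg (pos_n hm i)) s
      have h3 := gq_le_one (pos_n hm i) t
      have h3' := gq_nonneg (pos_n hm i) t
      have h4 : (0 : ℝ) ≤ (s : ℝ) / ((2 ^ i * m : ℕ) : ℝ) := by positivity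
      calc (s : ℝ) / ((2 ^ i * m : ℕ) : ℝ) * (1 - 1 / (((2 ^ i * m : ℕ) : ℝ))) ^ s *
            gq (2 ^ i * m) t ≤ (s : ℝ) / ((2 ^ i * m : ℕ) : ℝ) * 1 * 1 := by
            apply mul_le_mul (mul_le_mul_of_nonneg_left h2 h4) h3 h3' (by linarith)
        _ = s * ((1 : ℝ) / ((2 ^ i * m : ℕ) : ℝ)) := by ring
    rw [← mul_sum] at h1
    have h5 := sum_inv_dyadic hm I
    have h6 := mul_le_mul_of_nonneg_left h5 (Nat.cast_nonneg (α := ℝ) s)
    calc _ ≤ _ := h1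
      _ ≤ _ := h6
      _ = 2 * (s / m) := by ring
  have b : ∑ i ∈ range I, (t : ℝ) / ((2 ^ i * m : ℕ) : ℝ) *
      (1 - 1 / (((2 ^ i * m : ℕ) : ℝ))) ^ t * gq (2 ^ i * m) s ≤ 2 * (s / m) := by
    calc ∑ i ∈ range I, (t : ℝ) / ((2 ^ i * m : ℕ) : ℝ) *
        (1 - 1 / (((2 ^ i * m : ℕ) : ℝ))) ^ t * gq (2 ^ i * m) s
        ≤ ∑ i ∈ range I, (t : ℝ) / ((2 ^ i * m : ℕ) : ℝ) *
          (1 - 1 / (((2 ^ i * m : ℕ) : ℝ))) ^ t * (s / m) := by
          apply sum_le_sum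
          intro i _
          apply mul_le_mul_of_nonneg_left
          · refine (gq_le_div (pos_n hm i) s).trans ?_
            apply div_le_div_of_nonneg_left (Nat.cast_nonneg _) hm'
            have : m ≤ 2 ^ i * m := Nat.le_mul_of_pos_left _ (by positivity)
            exact_mod_cast this
          · exact mul_nonneg (by positivity) (pow_nonneg (q_nonneg (pos_n hm i)) _)
      _ = (∑ i ∈ range I, (t : ℝ) / ((2 ^ i * m : ℕ) : ℝ) *
          (1 - 1 / (((2 ^ i * m : ℕ) : ℝ))) ^ t) * (s / m) := by rw [sum_mul]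
      _ ≤ 2 * (s / m) := mul_le_mul_of_nonneg_right (sum_xq hm I t) (by positivity)
  linarith

lemma Dl_le_right {m : ℕ} (hm : 1 ≤ m) (I s t : ℕ) : Dl m I s t ≤ 4 * (t / m) := by
  rw [Dl_comm]
  exact Dl_le_left hm I t s

lemma exp_neg_four : (1 : ℝ) / 55 ≤ Real.exp (-4) := by
  rw [Real.exp_neg, ← one_div]
  apply one_div_le_one_div_of_le (Real.exp_pos _)
  have h1 := Real.exp_one_lt_d9
  have h2 : Real.exp 4 = (Real.exp 1) ^ 4 := by rw [← Real.exp_nat_mul]; norm_num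
  rw [h2]
  have h0 := Real.exp_pos 1
  calc (Real.exp 1) ^ 4 ≤ (2.7182818286 : ℝ) ^ 4 := pow_le_pow_left₀ h0.le h1.le 4
    _ ≤ 55 := by norm_num

lemma x_exp_ge {x : ℝ} (h1 : 1 ≤ x) (h2 : x ≤ 2) : 2 / 55 ≤ x * Real.exp (-(2 * x)) := by
  have e1 : Real.exp (-(2 * x)) = Real.exp (-4) * Real.exp (4 - 2 * x) := by
    rw [← Real.exp_add]; congr 1; ring
  have e2 := Real.add_one_le_exp (4 - 2 * x)
  have e3 := exp_neg_four
  have e4 : (2 : ℝ) ≤ x * Real.exp (4 - 2 * x) := by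
    have : x * (4 - 2 * x + 1) ≤ x * Real.exp (4 - 2 * x) :=
      mul_le_mul_of_nonneg_left e2 (by linarith)
    nlinarith
  rw [e1]
  have e5 : x * (Real.exp (-4) * Real.exp (4 - 2 * x)) =
      Real.exp (-4) * (x * Real.exp (4 - 2 * x)) := by ring
  rw [e5]
  have e6 := Real.exp_pos (-4 : ℝ)
  nlinarith

lemma gq_ge_half {n : ℕ} (hn : 1 ≤ n) {k : ℕ} (hk : n ≤ k) : 1 / 2 ≤ gq n k := by
  unfold gq
  have h1 := q_pow_le_exp hn k
  have hn' : (0 : ℝ) < n := by exact_mod_cast hn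
  have h2 : Real.exp (-((k : ℝ) / n)) ≤ Real.exp (-1) := by
    apply Real.exp_le_exp.2
    have : (1 : ℝ) ≤ (k : ℝ) / n := by
      rw [one_le_div hn']
      exact_mod_cast hk
    linarith
  have h4 : Real.exp (-1) ≤ 1 / 2 := by
    rw [Real.exp_neg, ← one_div]
    apply one_div_le_one_div_of_le (by norm_num)
    have := Real.add_one_le_exp (1 : ℝ)
    linarith
  linarith

/-- lower bound, ordered form -/
lemma le_Dl_aux {m : ℕ} (hm : 2 ≤ m) {I s t : ℕ} (hs : m ≤ s) (hst : s ≤ t)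
    (hI : s < 2 ^ I * m) : 1 / 64 ≤ Dl m I s t := by
  -- the right scale
  obtain ⟨i, hiI, h1, h2⟩ : ∃ i, i < I ∧ 2 ^ i * m ≤ s ∧ s < 2 ^ (i + 1) * m := by
    have hex : ∃ j, s < 2 ^ j * m := ⟨I, hI⟩
    classical
    have h3 := Nat.find_spec hex
    have h4 : Nat.find hex ≤ I := Nat.find_min' hex hI
    have h5 : Nat.find hex ≠ 0 := by
      intro h0
      rw [h0] at h3
      simp at h3
      omega
    obtain ⟨i, hi⟩ := Nat.exists_eq_succ_of_ne_zero h5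
    refine ⟨i, by omega, ?_, by rw [hi] at h3; exact h3⟩
    have h6 := Nat.find_min hex (m := i) (by omega)
    omega
  have hm1 : 1 ≤ m := by omega
  have hn2 : 2 ≤ 2 ^ i * m := hm.trans (Nat.le_mul_of_pos_left _ (by positivity))
  rw [Dl_eq]
  have h3 : (s : ℝ) / ((2 ^ i * m : ℕ) : ℝ) * (1 - 1 / (((2 ^ i * m : ℕ) : ℝ))) ^ s *
      gq (2 ^ i * m) t + (t : ℝ) / ((2 ^ i * m : ℕ) : ℝ) *
      (1 - 1 / (((2 ^ i * m : ℕ) : ℝ))) ^ t * gq (2 ^ i * m) s ≤
      ∑ i ∈ range I, ((s : ℝ) / ((2 ^ i * m : ℕ) : ℝ) * (1 - 1 / (((2 ^ i * m : ℕ) : ℝ))) ^ s *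
        gq (2 ^ i * m) t +
      (t : ℝ) / ((2 ^ i * m : ℕ) : ℝ) * (1 - 1 / (((2 ^ i * m : ℕ) : ℝ))) ^ t *
        gq (2 ^ i * m) s) :=
    single_le_sum (f := fun i => (s : ℝ) / ((2 ^ i * m : ℕ) : ℝ) *
        (1 - 1 / (((2 ^ i * m : ℕ) : ℝ))) ^ s * gq (2 ^ i * m) t +
      (t : ℝ) / ((2 ^ i * m : ℕ) : ℝ) * (1 - 1 / (((2 ^ i * m : ℕ) : ℝ))) ^ t *
        gq (2 ^ i * m) s) (fun i _ => add_nonneg (term_nonneg hm1 i s t) (term_nonneg hm1 i t s))
      (mem_range.2 hiI)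
  refine le_trans ?_ h3
  have h4 := term_nonneg hm1 i t s
  have hn0 : (0 : ℝ) < ((2 ^ i * m : ℕ) : ℝ) := by
    have := pos_n hm1 i
    exact_mod_cast this
  have h5 : (1 : ℝ) ≤ (s : ℝ) / ((2 ^ i * m : ℕ) : ℝ) := by
    rw [one_le_div hn0]
    exact_mod_cast h1
  have h5' : (s : ℝ) / ((2 ^ i * m : ℕ) : ℝ) ≤ 2 := by
    rw [div_le_iff₀ hn0]
    have h8 : s ≤ 2 * (2 ^ i * m) := by
      have : 2 ^ (i + 1) * m = 2 * (2 ^ i * m) := by rw [pow_succ]; ring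
      omega
    exact_mod_cast h8
  have h7 : (1 : ℝ) / 2 ≤ gq (2 ^ i * m) t := gq_ge_half (by omega) (h1.trans hst)
  have h8 : (2 : ℝ) / 55 ≤ (s : ℝ) / ((2 ^ i * m : ℕ) : ℝ) *
      (1 - 1 / (((2 ^ i * m : ℕ) : ℝ))) ^ s := by
    refine (x_exp_ge h5 h5').trans (mul_le_mul_of_nonneg_left ?_ (by linarith))
    have h9 := exp_le_q_pow hn2 s
    have h10 : 2 * (s : ℝ) / ((2 ^ i * m : ℕ) : ℝ) = 2 * ((s : ℝ) / ((2 ^ i * m : ℕ) : ℝ)) := by
      ring
    rw [h10] at h9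
    exact h9
  have h9 : (2 : ℝ) / 55 * (1 / 2) ≤ (s : ℝ) / ((2 ^ i * m : ℕ) : ℝ) *
      (1 - 1 / (((2 ^ i * m : ℕ) : ℝ))) ^ s * gq (2 ^ i * m) t :=
    mul_le_mul h8 h7 (by norm_num) (by linarith)
  linarith

/-- lower bound: both clusters of size at least `m` -/
lemma le_Dl {m : ℕ} (hm : 2 ≤ m) {I s t : ℕ} (hs : m ≤ s) (ht : m ≤ t)
    (hI : min s t < 2 ^ I * m) : 1 / 64 ≤ Dl m I s t := by
  rcases le_total s t with h | h
  · rw [min_eq_left h] at hI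
    exact le_Dl_aux hm hs h hI
  · rw [min_eq_right h] at hI
    rw [Dl_comm]
    exact le_Dl_aux hm ht h hI


end Real

section Glue

variable {V : Type*} [DecidableEq V]

/-- Summing a function of the cluster size before and after gluing two clusters. -/
lemma glue_sum {F : Finset V} {S : Finset (Sym2 V)} (hS : ∀ e ∈ S, ∀ v ∈ e, v ∈ F) {b y : V}
    (hb : b ∈ F) (hy : y ∈ F) (h : ¬ Cn S b y) (f : ℕ → ℝ) :
    ∑ x ∈ F, f (csz (insert s(b, y) S) x) - ∑ x ∈ F, f (csz S x) =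
      ((csz S b : ℝ) + csz S y) * f (csz S b + csz S y) - csz S b * f (csz S b) -
        csz S y * f (csz S y) := by
  have hsub : cl S b ∪ cl S y ⊆ F := by
    apply Finset.union_subset
    · exact cl_subset_of (Λ := S) hS (Finset.Subset.refl _) hb
    · exact cl_subset_of (Λ := S) hS (Finset.Subset.refl _) hy
  have hcard : csz (insert s(b, y) S) b = csz S b + csz S y := by
    unfold csz
    rw [cl_insert_left, Finset.card_union_of_disjoint (cl_disjoint h)]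
  have hby : Cn (insert s(b, y) S) b y := Cn_of_mem (Finset.mem_insert_self _ _)
  rw [← Finset.sum_sub_distrib]
  have h0 : ∀ x ∈ F, x ∉ cl S b ∪ cl S y →
      f (csz (insert s(b, y) S) x) - f (csz S x) = 0 := by
    intro x _ hx
    rw [Finset.mem_union, mem_cl, mem_cl, not_or] at hx
    have : cl (insert s(b, y) S) x = cl S x := by
      ext z
      rw [mem_cl, mem_cl, Cn_insert]
      constructor
      · rintro (h1 | ⟨h1, _⟩ | ⟨h1, _⟩)
        · exact h1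
        · exact absurd h1.symm hx.1
        · exact absurd h1.symm hx.2
      · exact fun h1 => Or.inl h1
    unfold csz
    rw [this, sub_self]
  rw [← Finset.sum_subset hsub h0, Finset.sum_union (cl_disjoint h)]
  have h1 : ∀ x ∈ cl S b, f (csz (insert s(b, y) S) x) - f (csz S x) =
      f (csz S b + csz S y) - f (csz S b) := by
    intro x hx
    rw [mem_cl] at hx
    rw [← csz_eq hx, ← csz_eq (hx.mono (Finset.subset_insert _ _)), hcard]
  have h2 : ∀ x ∈ cl S y, f (csz (insert s(b, y) S) x) - f (csz S x) =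
      f (csz S b + csz S y) - f (csz S y) := by
    intro x hx
    rw [mem_cl] at hx
    rw [← csz_eq hx, ← csz_eq (hby.trans (hx.mono (Finset.subset_insert _ _))), hcard]
  rw [Finset.sum_congr rfl h1, Finset.sum_congr rfl h2, Finset.sum_const, Finset.sum_const,
    nsmul_eq_mul, nsmul_eq_mul]
  change (csz S b : ℝ) * _ + (csz S y : ℝ) * _ = _
  ring

/-- Nothing changes if the two points are already connected. -/
lemma glue_same {S : Finset (Sym2 V)} {b y : V} (h : Cn S b y) (x : V) :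
    csz (insert s(b, y) S) x = csz S x := by
  have : cl (insert s(b, y) S) x = cl S x := by
    ext z
    rw [mem_cl, mem_cl, Cn_insert]
    constructor
    · rintro (h1 | ⟨h1, h2⟩ | ⟨h1, h2⟩)
      · exact h1
      · exact h1.trans (h.trans h2)
      · exact h1.trans (h.symm.trans h2)
    · exact fun h1 => Or.inl h1
  unfold csz
  rw [this]

lemma dG_same {F : Finset V} {S : Finset (Sym2 V)} {b y : V} (h : Cn S b y) (t : ℝ) :
    dG t F b y S = 0 := by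
  unfold dG Gf gh
  simp only [glue_same h, sub_self]

lemma dG_eq {F : Finset V} {S : Finset (Sym2 V)} (hS : ∀ e ∈ S, ∀ v ∈ e, v ∈ F) {b y : V}
    (hb : b ∈ F) (hy : y ∈ F) (h : ¬ Cn S b y) (t : ℝ) :
    dG t F b y S = csz S b * (1 - t) ^ csz S b * (1 - (1 - t) ^ csz S y) +
      csz S y * (1 - t) ^ csz S y * (1 - (1 - t) ^ csz S b) := by
  unfold dG Gf gh
  rw [glue_sum hS hb hy h (fun k => 1 - (1 - t) ^ k)]
  rw [pow_add]
  ring

lemma TH_same {n I : ℕ} {F : Finset V} {S : Finset (Sym2 V)} {b y : V} (h : Cn S b y) :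
    TH n I F b y S = 0 := by
  unfold TH
  simp only [dG_same h, mul_zero, Finset.sum_const_zero]

lemma TH_eq {n I : ℕ} {F : Finset V} {S : Finset (Sym2 V)} (hS : ∀ e ∈ S, ∀ v ∈ e, v ∈ F)
    {b y : V} (hb : b ∈ F) (hy : y ∈ F) (h : ¬ Cn S b y) :
    TH n I F b y S = Dl n I (csz S b) (csz S y) := by
  rw [Dl_eq]
  unfold TH gq
  apply Finset.sum_congr rfl
  intro i _
  rw [dG_eq hS hb hy h]
  push_cast
  ring

end Glue

/-- (T1) upper bounds for the gain. -/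
theorem thUp {V : Type*} [DecidableEq V] : Stmts.ThUpStmt V := by
  intro n I hn F S hS b hb y hy m
  have hn' : (0 : ℝ) < n := by exact_mod_cast hn
  by_cases h : Cn S b y
  · rw [TH_same h]
    refine ⟨le_rfl, ?_⟩
    have : 0 ≤ DD m b y S := I1_nonneg _
    positivity
  · rw [TH_eq hS hb hy h]
    refine ⟨Dl_nonneg hn _ _ _, ?_⟩
    by_cases h1 : m ≤ csz S b ∧ m ≤ csz S y
    · have h2 : DD m b y S = 1 := I1_true ⟨h, h1.1, h1.2⟩
      rw [h2]
      have h3 := Dl_le_four hn I (csz S b) (csz S y)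
      have h4 : (0 : ℝ) ≤ (m : ℝ) / n := by positivity
      linarith
    · have h2 : DD m b y S = 0 := I1_false (fun h' => h1 h'.2)
      rw [h2]
      have h4 : ∀ k : ℕ, k < m → (4 : ℝ) * ((k : ℝ) / n) ≤ 8 * (0 + (m : ℝ) / n) := by
        intro k hk
        have h5 : (k : ℝ) / n ≤ (m : ℝ) / n := by
          apply div_le_div_of_nonneg_right _ hn'.le
          exact_mod_cast hk.le
        have h6 : (0 : ℝ) ≤ (m : ℝ) / n := by positivity
        linarith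
      by_cases h5 : m ≤ csz S b
      · have h6 : csz S y < m := by
          by_contra h7
          exact h1 ⟨h5, not_lt.1 h7⟩
        exact (Dl_le_right hn I _ _).trans (h4 _ h6)
      · exact (Dl_le_left hn I _ _).trans (h4 _ (not_le.1 h5))

/-- (T2) lower bound for the gain. -/
theorem thLow {V : Type*} [DecidableEq V] : Stmts.ThLowStmt V := by
  intro n I hn F S hS hF b hb y hy
  by_cases h : Cn S b y
  · rw [TH_same h]
    have h2 : DD n b y S = 0 := I1_false (fun h' => h'.1 h)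
    rw [h2, mul_zero]
  · rw [TH_eq hS hb hy h]
    by_cases h1 : n ≤ csz S b ∧ n ≤ csz S y
    · have h2 : DD n b y S = 1 := I1_true ⟨h, h1.1, h1.2⟩
      rw [h2]
      have h3 : csz S b ≤ F.card :=
        Finset.card_le_card (cl_subset_of (Λ := S) hS (Finset.Subset.refl _) hb)
      have h4 := le_Dl hn (I := I) h1.1 h1.2 (lt_of_le_of_lt ((min_le_left _ _).trans h3) hF)
      linarith
    · have h2 : DD n b y S = 0 := I1_false (fun h' => h1 h'.2)
      rw [h2]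
      have h3 := Dl_nonneg (show 1 ≤ n by omega) I (csz S b) (csz S y)
      linarith

end Vale.Agent.P151.QP.Th
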