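import Vale.Agent.P151.QP.Stmts

/-!
# The bag bound

`S` is a fixed finite set of edges, `W` a random set of ghost vertices (every vertex of `F` is a
ghost with probability `h`). The bag of `x` is the set of the vertices `y` such that `x` and `y`
are joined to the ghosts and some single edge of `S` cuts both of them off. Its expected size is at
most `2 / h`, for every `S`.
-/

set_option autoImplicit false

open Finset

namespace Vale.Agent.P151.QP

open Vale.Agent.P151

variable {V : Type*} [DecidableEq V]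

/-- Connections of `S` which are not connections of `S.erase e` use `e`. -/
lemma bag_Cn_split {S : Finset (Sym2 V)} {e : Sym2 V} (he : e ∈ S) :
    ∃ u v : V, e = s(u, v) ∧ ∀ x y, Cn S x y → ¬ Cn (S.erase e) x y →
      (Cn (S.erase e) x u ∧ Cn (S.erase e) v y) ∨ (Cn (S.erase e) x v ∧ Cn (S.erase e) u y) := by
  induction e with
  | _ u v =>
    refine ⟨u, v, rfl, fun x y h hn => ?_⟩
    rw [← Finset.insert_erase he, Cn_insert] at h
    rcases h with h | h | h
    · exact absurd h hn
    · exact Or.inl h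
    · exact Or.inr h

/-- In the bag situation the cutting edge does not separate `x` from `y`. -/
lemma bag_cn {W : Finset V} {S : Finset (Sym2 V)} {x y : V} (h : Bag S W x y) :
    ∃ e ∈ S, Cn (S.erase e) x y ∧ ¬ JW (S.erase e) W x := by
  obtain ⟨⟨w, hw, hxw⟩, ⟨w', hw', hyw'⟩, e, he, hx, hy⟩ := h
  refine ⟨e, he, ?_, hx⟩
  obtain ⟨u, v, -, H⟩ := bag_Cn_split he
  have h1 := H x w hxw (fun h => hx ⟨w, hw, h⟩)
  have h2 := H y w' hyw' (fun h => hy ⟨w', hw', h⟩)
  rcases h1 with ⟨a, b⟩ | ⟨a, b⟩ <;> rcases h2 with ⟨c, d⟩ | ⟨c, d⟩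
  · exact a.trans c.symm
  · exact absurd ⟨w, hw, c.trans b⟩ hy
  · exact absurd ⟨w, hw, c.trans b⟩ hy
  · exact a.trans c.symm

/-- Three distinct vertices, each cut off together with `x` from the two others: impossible. -/
lemma bag_no_three {S : Finset (Sym2 V)} {x a b c : V} {e f g : Sym2 V} (he : e ∈ S) (hf : f ∈ S)
    (hea : Cn (S.erase e) x a) (heb : ¬ Cn (S.erase e) x b) (hec : ¬ Cn (S.erase e) x c)
    (hfb : Cn (S.erase f) x b) (hfa : ¬ Cn (S.erase f) x a) (hfc : ¬ Cn (S.erase f) x c)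
    (hgc : Cn (S.erase g) x c) : False := by
  have hb : Cn S x b := hfb.mono (Finset.erase_subset _ _)
  have hc : Cn S x c := hgc.mono (Finset.erase_subset _ _)
  -- `b` and `c` are joined in `S.erase e`
  have hbc : Cn (S.erase e) b c := by
    obtain ⟨u, v, -, H⟩ := bag_Cn_split he
    rcases H x b hb heb with ⟨p, q⟩ | ⟨p, q⟩ <;> rcases H x c hc hec with ⟨r, t⟩ | ⟨r, t⟩
    · exact q.symm.trans t
    · exact absurd (p.trans t) hec
    · exact absurd (p.trans t) hec
    · exact q.symm.trans t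
  have hef : e ≠ f := by
    rintro rfl
    exact hfa hea
  have hf' : f ∈ S.erase e := Finset.mem_erase.2 ⟨hef.symm, hf⟩
  obtain ⟨u, v, -, H⟩ := bag_Cn_split hf'
  have hsub : (S.erase e).erase f ⊆ S.erase f := Finset.erase_subset_erase f (Finset.erase_subset e S)
  have hsub' : (S.erase e).erase f ⊆ S.erase e := Finset.erase_subset _ _
  have ha := H x a hea (fun h => hfa (h.mono hsub))
  have hxu : Cn ((S.erase e).erase f) x u ∨ Cn ((S.erase e).erase f) x v := by
    rcases ha with ⟨p, _⟩ | ⟨p, _⟩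
    · exact Or.inl p
    · exact Or.inr p
  -- both end points of `f` are joined to `x` in `S.erase e`
  have hu : Cn (S.erase e) x u := by
    rcases ha with ⟨p, q⟩ | ⟨p, q⟩
    · exact p.mono hsub'
    · exact hea.trans (q.symm.mono hsub')
  have hv : Cn (S.erase e) x v := by
    rcases ha with ⟨p, q⟩ | ⟨p, q⟩
    · exact hea.trans (q.symm.mono hsub')
    · exact p.mono hsub'
  by_cases hbc' : Cn ((S.erase e).erase f) b c
  · exact hfc (hfb.trans (hbc'.mono hsub))
  · rcases H b c hbc hbc' with ⟨p, _⟩ | ⟨p, _⟩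
    · exact heb (hu.trans (p.symm.mono hsub'))
    · exact heb (hv.trans (p.symm.mono hsub'))

open Classical in
/-- At most two ghosts are such that `x` and the ghost are cut off from the others by one edge. -/
lemma bag_card_le_two (F W : Finset V) (S : Finset (Sym2 V)) (x : V) :
    (F.filter (fun y => y ∈ W ∧ Bag S (W.erase y) x y)).card ≤ 2 := by
  by_contra hcon
  push Not at hcon
  obtain ⟨a, ha, b, hb, c, hc, hab, hac, hbc⟩ := Finset.two_lt_card.1 hcon
  rw [Finset.mem_filter] at ha hb hc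
  obtain ⟨-, haW, hA⟩ := ha
  obtain ⟨-, hbW, hB⟩ := hb
  obtain ⟨-, hcW, hC⟩ := hc
  obtain ⟨e, he, hea, heW⟩ := (bag_cn hA)
  obtain ⟨f, hf, hfb, hfW⟩ := (bag_cn hB)
  obtain ⟨g, hg, hgc, -⟩ := (bag_cn hC)
  refine bag_no_three he hf hea ?_ ?_ hfb ?_ ?_ hgc
  · exact fun h => heW ⟨b, Finset.mem_erase.2 ⟨hab.symm, hbW⟩, h⟩
  · exact fun h => heW ⟨c, Finset.mem_erase.2 ⟨hac.symm, hcW⟩, h⟩
  · exact fun h => hfW ⟨a, Finset.mem_erase.2 ⟨hab, haW⟩, h⟩
  · exact fun h => hfW ⟨c, Finset.mem_erase.2 ⟨hbc.symm, hcW⟩, h⟩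

lemma bag_not_mem {W : Finset V} {S : Finset (Sym2 V)} {x y : V} (h : Bag S W x y) : y ∉ W := by
  obtain ⟨-, -, e, -, -, hy⟩ := h
  exact fun hW => hy ⟨y, hW, Cn.refl _ y⟩

open Classical in
/-- Moving `y` in or out of the ghosts. -/
lemma bag_switch {h : ℝ} (h0 : 0 ≤ h) (h1 : h ≤ 1) (F : Finset V) (S : Finset (Sym2 V)) (x : V) {y : V}
    (hy : y ∈ F) :
    h * Ex h F (fun W => I1 (Bag S W x y)) ≤
      Ex h F (fun W => I1 (y ∈ W ∧ Bag S (W.erase y) x y)) := by
  have hnot : y ∉ F.erase y := Finset.notMem_erase y F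
  have hins : F = insert y (F.erase y) := (Finset.insert_erase hy).symm
  have e1 : Ex h F (fun W => I1 (Bag S W x y)) =
      (1 - h) * Ex h (F.erase y) (fun W => I1 (Bag S W x y)) := by
    conv_lhs => rw [hins]
    rw [Ex_insert h hnot]
    have : Ex h (F.erase y) (fun W => I1 (Bag S (insert y W) x y)) = 0 := by
      rw [Ex_congr h (G := fun _ => (0 : ℝ))]
      · simp
      · intro W _
        exact I1_false fun hB => bag_not_mem hB (Finset.mem_insert_self _ _)
    rw [this]; ring
  have e2 : Ex h F (fun W => I1 (y ∈ W ∧ Bag S (W.erase y) x y)) =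
      h * Ex h (F.erase y) (fun W => I1 (Bag S W x y)) := by
    conv_lhs => rw [hins]
    rw [Ex_insert h hnot]
    have a1 : Ex h (F.erase y) (fun W => I1 (y ∈ insert y W ∧ Bag S ((insert y W).erase y) x y)) =
        Ex h (F.erase y) (fun W => I1 (Bag S W x y)) := by
      apply Ex_congr
      intro W hW
      have hyW : y ∉ W := fun hh => hnot (hW hh)
      rw [Finset.erase_insert hyW]
      simp
    have a2 : Ex h (F.erase y) (fun W => I1 (y ∈ W ∧ Bag S (W.erase y) x y)) = 0 := by
      rw [Ex_congr h (G := fun _ => (0 : ℝ))]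
      · simp
      · intro W hW
        have hyW : y ∉ W := fun hh => hnot (hW hh)
        exact I1_false fun hB => hyW hB.1
    rw [a1, a2]; ring
  rw [e1, e2]
  have hnn : 0 ≤ Ex h (F.erase y) (fun W => I1 (Bag S W x y)) :=
    Ex_nonneg h0 h1 (fun W _ => I1_nonneg _)
  nlinarith [mul_nonneg h0 (mul_nonneg h0 hnn)]

open Classical in
/-- **The bag bound**: for every set `S` of edges the expected size of the bag is at most `2 / h`. -/
theorem bag_bound {h : ℝ} (h0 : 0 < h) (h1 : h ≤ 1) (F : Finset V) (S : Finset (Sym2 V)) (x : V) :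
    Ex h F (fun W => ∑ y ∈ F, I1 (Bag S W x y)) ≤ 2 / h := by
  rw [le_div_iff₀ h0, mul_comm, Ex_sum, Finset.mul_sum]
  calc ∑ y ∈ F, h * Ex h F (fun W => I1 (Bag S W x y))
      ≤ ∑ y ∈ F, Ex h F (fun W => I1 (y ∈ W ∧ Bag S (W.erase y) x y)) :=
        Finset.sum_le_sum fun y hy => bag_switch h0.le h1 F S x hy
    _ = Ex h F (fun W => ∑ y ∈ F, I1 (y ∈ W ∧ Bag S (W.erase y) x y)) :=
        (Ex_sum h F F _).symm
    _ ≤ 2 := by
        apply Ex_le_const h0.le h1
        intro W _
        have h2 : ∑ y ∈ F, I1 (y ∈ W ∧ Bag S (W.erase y) x y) =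
            ∑ y ∈ F, if y ∈ W ∧ Bag S (W.erase y) x y then (1 : ℝ) else 0 := by
          refine Finset.sum_congr rfl fun y _ => ?_
          by_cases hy : y ∈ W ∧ Bag S (W.erase y) x y
          · rw [I1_true hy, if_pos hy]
          · rw [I1_false hy, if_neg hy]
        rw [h2, ← Finset.sum_filter, Finset.sum_const, nsmul_eq_mul, mul_one]
        exact_mod_cast bag_card_le_two F W S x

/-- Item (B) of the blueprint. -/
theorem bagStmt : Stmts.BagStmt V := fun h h0 h1 F S _ x _ =>
  (bag_bound h0 h1 F S x).trans (by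
    rw [div_le_div_iff_of_pos_right h0]
    norm_num)

end Vale.Agent.P151.QP
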