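import Vale.Agent.P151.QP.Stmts
import Vale.Agent.P151.R3.H120.Menger2

/-!
# (M), (V1): the covariance of two connections to the ghosts is at most the bag probability
-/

set_option autoImplicit false
set_option linter.unusedSectionVars false

open Finset

namespace Vale.Agent.P151.QP

open Vale.Agent.P151

universe u
variable {V : Type u} [DecidableEq V]

lemma I1_eq_ind (P : Prop) : I1 P = Vale.Agent.P165.LF.ind P := rfl

lemma JW.mono {S S' : Finset (Sym2 V)} {W W' : Finset V} {x : V} (hS : S ⊆ S') (hW : W ⊆ W')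
    (h : JW S W x) : JW S' W' x := by
  obtain ⟨w, hw, hc⟩ := h
  exact ⟨w, hW hw, hc.mono hS⟩

lemma JW.of_Cn {S : Finset (Sym2 V)} {W : Finset V} {x y : V} (hxy : Cn S x y)
    (h : JW S W y) : JW S W x := by
  obtain ⟨w, hw, hc⟩ := h
  exact ⟨w, hw, hxy.trans hc⟩

lemma JW_union {S : Finset (Sym2 V)} {W W' : Finset V} {x : V} :
    JW S (W ∪ W') x ↔ JW S W x ∨ JW S W' x := by
  constructor
  · rintro ⟨w, hw, hc⟩
    rcases mem_union.1 hw with h | h
    · exact Or.inl ⟨w, h, hc⟩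
    · exact Or.inr ⟨w, h, hc⟩
  · rintro (⟨w, hw, hc⟩ | ⟨w, hw, hc⟩)
    · exact ⟨w, mem_union_left _ hw, hc⟩
    · exact ⟨w, mem_union_right _ hw, hc⟩

lemma Bag.symm {S : Finset (Sym2 V)} {W : Finset V} {x y : V} (h : Bag S W x y) : Bag S W y x := by
  obtain ⟨hx, hy, e, he, h1, h2⟩ := h
  exact ⟨hy, hx, e, he, h2, h1⟩

/-- Points of the same bag are in the same cluster. -/
lemma Bag.Cn {S : Finset (Sym2 V)} {W : Finset V} {x y : V} (h : Bag S W x y) :
    Vale.Agent.P151.Cn S x y := by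
  obtain ⟨⟨w, hw, hx⟩, ⟨w', hw', hy⟩, e, he, h1, h2⟩ := h
  induction e with
  | _ a b =>
    have hS : insert s(a, b) (S.erase s(a, b)) = S := insert_erase he
    have hab : Vale.Agent.P151.Cn S a b := Cn_of_mem he
    have key : ∀ z, Vale.Agent.P151.Cn S x z → z ∈ W → Vale.Agent.P151.Cn S x a := by
      intro z hz hzW
      rw [← hS, Cn_insert] at hz
      rcases hz with hz | ⟨hz, -⟩ | ⟨hz, -⟩
      · exact absurd ⟨z, hzW, hz⟩ h1
      · exact hz.mono (erase_subset _ _)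
      · exact (hz.mono (erase_subset _ _)).trans hab.symm
    have key' : ∀ z, Vale.Agent.P151.Cn S y z → z ∈ W → Vale.Agent.P151.Cn S y a := by
      intro z hz hzW
      rw [← hS, Cn_insert] at hz
      rcases hz with hz | ⟨hz, -⟩ | ⟨hz, -⟩
      · exact absurd ⟨z, hzW, hz⟩ h2
      · exact hz.mono (erase_subset _ _)
      · exact (hz.mono (erase_subset _ _)).trans hab.symm
    exact (key w hx hw).trans (key' w' hy hw').symm

/-- **(M)** -/
theorem mengerStmt : Stmts.MengerStmt V := by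
  intro S W x y hx hy hb
  rcases R3.H120.menger2 S (↑W) x y hx hy with h | ⟨e, he, h1, h2⟩
  · exact h
  · exact absurd ⟨hx, hy, e, he, h1, h2⟩ hb

/-- A connection within the cluster only uses the edges of the cluster. -/
lemma JW_cluster {S : Finset (Sym2 V)} {W : Finset V} {x : V} [DecidablePred fun e : Sym2 V =>
    ∀ v ∈ e, Cn S x v] (h : JW S W x) : JW (S.filter (fun e => ∀ v ∈ e, Cn S x v)) W x := by
  obtain ⟨w, hw, hc⟩ := h
  refine ⟨w, hw, ?_⟩
  have := Cn_closed (S := S) (x := x) (y := w)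
    (A := {v | Cn S x v ∧ Cn (S.filter (fun e => ∀ v ∈ e, Cn S x v)) x v}) ?_
    ⟨Cn.refl _ _, Cn.refl _ _⟩ hc
  · exact this.2
  · rintro u ⟨hu, hu'⟩ v huv
    have hv : Cn S x v := hu.trans (Cn_of_mem huv)
    refine ⟨hv, hu'.trans (Cn_of_mem ?_)⟩
    rw [mem_filter]
    refine ⟨huv, fun z hz => ?_⟩
    rcases Sym2.mem_iff.1 hz with rfl | rfl
    · exact hu
    · exact hv

lemma dis_of_not_Cn {S : Finset (Sym2 V)} {W W' : Finset V} {x y : V} (hx : JW S W' x)
    (hy : JW S W y) (h : ¬ Cn S x y) :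
    ∃ S1 S2, S1 ⊆ S ∧ S2 ⊆ S ∧ Disjoint S1 S2 ∧ JW S1 W' x ∧ JW S2 W y := by
  classical
  refine ⟨S.filter (fun e => ∀ v ∈ e, Cn S x v), S.filter (fun e => ∀ v ∈ e, Cn S y v),
    filter_subset _ _, filter_subset _ _, ?_, JW_cluster hx, JW_cluster hy⟩
  rw [Finset.disjoint_left]
  intro e he he'
  rw [mem_filter] at he he'
  induction e with
  | _ a b =>
    exact h ((he.2 a (Sym2.mem_mk_left a b)).trans (he'.2 a (Sym2.mem_mk_left a b)).symm)

/-- Two connections are either disjoint, or the points are in the same bag. -/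
theorem dis_or_bag {S : Finset (Sym2 V)} {W W' : Finset V} (hW : W ⊆ W') {x y : V}
    (hx : JW S W' x) (hy : JW S W y) :
    (∃ S1 S2, S1 ⊆ S ∧ S2 ⊆ S ∧ Disjoint S1 S2 ∧ JW S1 W' x ∧ JW S2 W y) ∨ Bag S W x y := by
  by_cases hc : Cn S x y
  · have hx' : JW S W x := hy.of_Cn hc
    by_cases hb : Bag S W x y
    · exact Or.inr hb
    · obtain ⟨S1, S2, h1, h2, h3, h4, h5⟩ := mengerStmt S W x y hx' hy hb
      exact Or.inl ⟨S1, S2, h1, h2, h3, h4.mono (Finset.Subset.refl _) hW, h5⟩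
  · exact Or.inl (dis_of_not_Cn hx hy hc)

/-- **(V1)**, for nested ghost sets. -/
theorem cov_le {p : ℝ} (h0 : 0 ≤ p) (h1 : p ≤ 1) (Λ : Finset (Sym2 V)) {W W' : Finset V}
    (hW : W ⊆ W') (x y : V) :
    Ex p Λ (fun S => I1 (JW S W' x) * I1 (JW S W y)) ≤
      Ex p Λ (fun S => I1 (JW S W' x)) * Ex p Λ (fun S => I1 (JW S W y)) +
        Ex p Λ (fun S => I1 (Bag S W x y)) := by
  have hbk := Vale.Agent.P165.LF.bk h0 h1 Λ (fun S => JW S W' x) (fun S => JW S W y)
    (fun S S' h => JW.mono h (Finset.Subset.refl _))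
    (fun S S' h => JW.mono h (Finset.Subset.refl _))
  refine le_trans ?_ (add_le_add hbk (le_refl (Ex p Λ (fun S => I1 (Bag S W x y)))))
  rw [← Ex_add]
  refine Ex_mono h0 h1 fun S _ => ?_
  rw [← I1_and]
  simp only [← I1_eq_ind]
  by_cases h : JW S W' x ∧ JW S W y
  · rcases dis_or_bag hW h.1 h.2 with h2 | h2
    · rw [I1_true h2]
      have := I1_le_one (JW S W' x ∧ JW S W y)
      have := I1_nonneg (Bag S W x y)
      linarith
    · rw [I1_true h2]
      have := I1_le_one (JW S W' x ∧ JW S W y)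
      have := I1_nonneg (∃ S1 S2, S1 ⊆ S ∧ S2 ⊆ S ∧ Disjoint S1 S2 ∧ JW S1 W' x ∧ JW S2 W y)
      linarith
  · rw [I1_false h]
    exact add_nonneg (I1_nonneg _) (I1_nonneg _)

/-- **(V1)** -/
theorem covStmt : Stmts.CovStmt V := fun _ h0 h1 Λ _ _ b o =>
  cov_le h0 h1 Λ subset_union_right b o

end Vale.Agent.P151.QP
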