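import Vale.Agent.P151.QP.Stmts
import Vale.Agent.P151.QP.Cov
import Vale.Agent.P151.QP.Bag

/-!
# The variance bound

`Var_S (∑ a_x gh h x S) ≤ E_W Var_S (∑ a_x 1{x ↔ W}) ≤ ∑_{x,y} E P(y ∈ bag of x) ≤ 4 |F| / h`.
-/

set_option autoImplicit false

open Finset SimpleGraph

namespace Vale.Agent.P151.QP

open Vale.Agent.P151

universe u

section general

variable {ι : Type*} [DecidableEq ι]

/-- The variance of `X`. -/
lemma Ex_sub_mean_sq (p : ℝ) (Λ : Finset ι) (X : Finset ι → ℝ) (c : ℝ) :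
    Ex p Λ (fun S => (X S - c) ^ 2) =
      Ex p Λ (fun S => X S ^ 2) - 2 * c * Ex p Λ X + c ^ 2 := by
  have h : (fun S => (X S - c) ^ 2) = (fun S => (X S ^ 2 - 2 * c * X S) + c ^ 2) := by
    funext S; ring
  rw [h, Ex_add, Ex_sub, Ex_const_mul, Ex_const]

lemma sq_Ex_le {p : ℝ} (h0 : 0 ≤ p) (h1 : p ≤ 1) (Λ : Finset ι) (X : Finset ι → ℝ) :
    (Ex p Λ X) ^ 2 ≤ Ex p Λ (fun S => X S ^ 2) := by
  have h := Ex_nonneg h0 h1 (Λ := Λ) (F := fun S => (X S - Ex p Λ X) ^ 2)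
    (fun S _ => sq_nonneg _)
  rw [Ex_sub_mean_sq] at h
  nlinarith [h]

/-- Jensen's inequality for the variance of a conditional expectation. -/
lemma var_Ex_le {κ : Type*} [DecidableEq κ] {p h : ℝ} (hp0 : 0 ≤ p) (hp1 : p ≤ 1)
    (hh0 : 0 ≤ h) (hh1 : h ≤ 1) (Λ : Finset ι) (F : Finset κ) (X : Finset ι → Finset κ → ℝ) :
    Ex p Λ (fun S => (Ex h F (X S)) ^ 2) - (Ex p Λ (fun S => Ex h F (X S))) ^ 2 ≤
      Ex h F (fun W => Ex p Λ (fun S => X S W ^ 2) - (Ex p Λ (fun S => X S W)) ^ 2) := by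
  -- centre `X` for every fixed `W`
  set g : Finset κ → ℝ := fun W => Ex p Λ (fun S => X S W) with hg
  set c : ℝ := Ex h F g with hc
  have hcomm : Ex p Λ (fun S => Ex h F (X S)) = c := by
    rw [hc, hg]
    exact Ex_comm p h Λ F (fun S W => X S W)
  have hY : ∀ S, Ex h F (fun W => X S W - g W) = Ex h F (X S) - c := by
    intro S
    rw [Ex_sub]
  have h1 : Ex p Λ (fun S => (Ex h F (X S)) ^ 2) - (Ex p Λ (fun S => Ex h F (X S))) ^ 2 =
      Ex p Λ (fun S => (Ex h F (fun W => X S W - g W)) ^ 2) := by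
    have e : (fun S => (Ex h F (fun W => X S W - g W)) ^ 2) =
        (fun S => (Ex h F (X S) - c) ^ 2) := by
      funext S; rw [hY]
    rw [e, Ex_sub_mean_sq, hcomm]
    ring
  have h2 : Ex p Λ (fun S => (Ex h F (fun W => X S W - g W)) ^ 2) ≤
      Ex p Λ (fun S => Ex h F (fun W => (X S W - g W) ^ 2)) :=
    Ex_mono hp0 hp1 (fun S _ => sq_Ex_le hh0 hh1 F _)
  have h3 : Ex p Λ (fun S => Ex h F (fun W => (X S W - g W) ^ 2)) =
      Ex h F (fun W => Ex p Λ (fun S => (X S W - g W) ^ 2)) :=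
    Ex_comm p h Λ F (fun S W => (X S W - g W) ^ 2)
  have h4 : (fun W => Ex p Λ (fun S => (X S W - g W) ^ 2)) =
      (fun W => Ex p Λ (fun S => X S W ^ 2) - (Ex p Λ (fun S => X S W)) ^ 2) := by
    funext W
    rw [Ex_sub_mean_sq]
    have : Ex p Λ (fun S => X S W) = g W := rfl
    rw [this]
    ring
  rw [h1]
  refine h2.trans (le_of_eq ?_)
  rw [h3, h4]

/-- Covariance and variances, without square roots. -/
lemma cov_sq_le {p : ℝ} (h0 : 0 ≤ p) (h1 : p ≤ 1) (Λ : Finset ι) (X Y : Finset ι → ℝ) :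
    (Ex p Λ (fun S => X S * Y S) - Ex p Λ X * Ex p Λ Y) ^ 2 ≤
      (Ex p Λ (fun S => X S ^ 2) - (Ex p Λ X) ^ 2) *
        (Ex p Λ (fun S => Y S ^ 2) - (Ex p Λ Y) ^ 2) := by
  set a := Ex p Λ (fun S => X S ^ 2) - (Ex p Λ X) ^ 2 with ha
  set b := Ex p Λ (fun S => Y S ^ 2) - (Ex p Λ Y) ^ 2 with hb
  set c := Ex p Λ (fun S => X S * Y S) - Ex p Λ X * Ex p Λ Y with hc
  -- the quadratic form `a s ^ 2 + 2 c s t + b t ^ 2` is nonnegative
  have key : ∀ s t : ℝ, 0 ≤ a * s ^ 2 + 2 * c * (s * t) + b * t ^ 2 := by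
    intro s t
    have h := sq_Ex_le h0 h1 Λ (fun S => s * X S + t * Y S)
    have e1 : Ex p Λ (fun S => s * X S + t * Y S) = s * Ex p Λ X + t * Ex p Λ Y := by
      rw [Ex_add, Ex_const_mul, Ex_const_mul]
    have e2 : Ex p Λ (fun S => (s * X S + t * Y S) ^ 2) =
        s ^ 2 * Ex p Λ (fun S => X S ^ 2) + 2 * (s * t) * Ex p Λ (fun S => X S * Y S) +
          t ^ 2 * Ex p Λ (fun S => Y S ^ 2) := by
      have : (fun S => (s * X S + t * Y S) ^ 2) =
          (fun S => (s ^ 2 * X S ^ 2 + 2 * (s * t) * (X S * Y S)) + t ^ 2 * Y S ^ 2) := by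
        funext S; ring
      rw [this, Ex_add, Ex_add, Ex_const_mul, Ex_const_mul, Ex_const_mul]
    rw [e1, e2] at h
    rw [ha, hb, hc]
    nlinarith [h]
  have ha0 : 0 ≤ a := by have := key 1 0; simpa using this
  have hb0 : 0 ≤ b := by have := key 0 1; simpa using this
  rcases eq_or_lt_of_le hb0 with hb' | hb'
  · -- `b = 0` forces `c = 0`
    have hc0 : c = 0 := by
      by_contra hne
      have h := key c (-(a * c ^ 2 + 1) / (2 * c ^ 2))
      rw [← hb'] at h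
      have hc2 : 0 < c ^ 2 := by positivity
      have e : a * c ^ 2 + 2 * c * (c * (-(a * c ^ 2 + 1) / (2 * c ^ 2))) +
          0 * (-(a * c ^ 2 + 1) / (2 * c ^ 2)) ^ 2 = -1 := by
        field_simp
        ring
      rw [e] at h
      linarith
    rw [hc0, ← hb']
    simp
  · have h := key b (-c)
    have e : a * b ^ 2 + 2 * c * (b * -c) + b * (-c) ^ 2 = b * (a * b - c ^ 2) := by ring
    rw [e] at h
    have := nonneg_of_mul_nonneg_right h hb'
    linarith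

lemma var_nonneg {p : ℝ} (h0 : 0 ≤ p) (h1 : p ≤ 1) (Λ : Finset ι) (X : Finset ι → ℝ) :
    0 ≤ Ex p Λ (fun S => X S ^ 2) - (Ex p Λ X) ^ 2 := by
  have := sq_Ex_le h0 h1 Λ X
  linarith

/-- Cauchy-Schwarz for the covariance. -/
lemma cov_le_sqrt {p : ℝ} (h0 : 0 ≤ p) (h1 : p ≤ 1) (Λ : Finset ι) (X Y : Finset ι → ℝ) :
    Ex p Λ (fun S => X S * Y S) - Ex p Λ X * Ex p Λ Y ≤
      Real.sqrt (Ex p Λ (fun S => X S ^ 2) - (Ex p Λ X) ^ 2) *
        Real.sqrt (Ex p Λ (fun S => Y S ^ 2) - (Ex p Λ Y) ^ 2) := by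
  rw [← Real.sqrt_mul (var_nonneg h0 h1 Λ X)]
  exact Real.le_sqrt_of_sq_le (cov_sq_le h0 h1 Λ X Y)

end general

variable {V : Type u} [DecidableEq V]

omit [DecidableEq V] in
lemma cl_subset_F {F : Finset V} {S : Finset (Sym2 V)} (hS : ∀ e ∈ S, ∀ v ∈ e, v ∈ F) {x : V}
    (hx : x ∈ F) : cl S x ⊆ F := by
  intro y hy
  have h : Cn S x y := mem_cl.1 hy
  have : y ∈ (F : Set V) := by
    refine Cn_closed (S := S) (A := (F : Set V)) ?_ (mem_coe.2 hx) h
    intro a _ b hab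
    exact hS _ hab b (Sym2.mem_mk_right a b)
  exact mem_coe.1 this

/-- `gh h x S` is the probability that `x` is joined to a random set of density `h`. -/
lemma gh_eq (h : ℝ) {F : Finset V} {S : Finset (Sym2 V)} (hS : ∀ e ∈ S, ∀ v ∈ e, v ∈ F) {x : V}
    (hx : x ∈ F) : gh h x S = Ex h F (fun W => I1 (JW S W x)) := by
  classical
  have h1 := Ex_hit h F (cl S x)
  have h2 : cl S x ∩ F = cl S x := Finset.inter_eq_left.2 (cl_subset_F hS hx)
  rw [h2] at h1
  unfold gh csz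
  rw [← h1]
  refine Ex_congr h (fun W _ => ?_)
  by_cases hJ : JW S W x
  · rw [I1_true hJ]
    obtain ⟨z, hz, hzK⟩ := hJ
    exact if_pos ⟨z, hz, mem_cl.2 hzK⟩
  · rw [I1_false hJ]
    refine if_neg (fun hh => hJ ?_)
    obtain ⟨z, hz, hzK⟩ := hh
    exact ⟨z, hz, mem_cl.1 hzK⟩

/-- The variance bound, from the covariance bound and the bag bound. -/
theorem var_of (hCov : Stmts.CovStmt V) (hBag : Stmts.BagStmt V) : Stmts.VarStmt V := by
  intro p hp0 hp1 h hh0 hh1 F Λ hΛ a ha0 ha1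
  set X : Finset (Sym2 V) → Finset V → ℝ := fun S W => ∑ x ∈ F, a x * I1 (JW S W x) with hX
  have hgh : ∀ S ⊆ Λ, ∑ x ∈ F, a x * gh h x S = Ex h F (X S) := by
    intro S hS
    rw [hX]
    simp only
    rw [Ex_sum]
    refine Finset.sum_congr rfl (fun x hx => ?_)
    rw [Ex_const_mul, gh_eq h (fun e he => hΛ e (hS he)) hx]
  have e1 : Ex p Λ (fun S => (∑ x ∈ F, a x * gh h x S) ^ 2) =
      Ex p Λ (fun S => (Ex h F (X S)) ^ 2) :=
    Ex_congr p (fun S hS => by rw [hgh S hS])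
  have e2 : Ex p Λ (fun S => ∑ x ∈ F, a x * gh h x S) = Ex p Λ (fun S => Ex h F (X S)) :=
    Ex_congr p (fun S hS => hgh S hS)
  rw [e1, e2]
  refine (var_Ex_le hp0 hp1 hh0.le hh1 Λ F X).trans ?_
  -- the variance for fixed `W`
  have hW : ∀ W ⊆ F, Ex p Λ (fun S => X S W ^ 2) - (Ex p Λ (fun S => X S W)) ^ 2 ≤
      ∑ x ∈ F, Ex p Λ (fun S => ∑ y ∈ F, I1 (Bag S W x y)) := by
    intro W _
    have s1 : Ex p Λ (fun S => X S W ^ 2) = ∑ x ∈ F, ∑ y ∈ F,
        a x * a y * Ex p Λ (fun S => I1 (JW S W x) * I1 (JW S W y)) := by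
      have : (fun S => X S W ^ 2) = (fun S => ∑ x ∈ F, ∑ y ∈ F,
          a x * a y * (I1 (JW S W x) * I1 (JW S W y))) := by
        funext S
        rw [hX]
        simp only
        rw [sq, Finset.sum_mul_sum]
        refine Finset.sum_congr rfl (fun x _ => Finset.sum_congr rfl (fun y _ => ?_))
        ring
      rw [this, Ex_sum]
      refine Finset.sum_congr rfl (fun x _ => ?_)
      rw [Ex_sum]
      refine Finset.sum_congr rfl (fun y _ => ?_)
      rw [Ex_const_mul]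
    have s2 : (Ex p Λ (fun S => X S W)) ^ 2 = ∑ x ∈ F, ∑ y ∈ F,
        a x * a y * (Ex p Λ (fun S => I1 (JW S W x)) * Ex p Λ (fun S => I1 (JW S W y))) := by
      have : Ex p Λ (fun S => X S W) = ∑ x ∈ F, a x * Ex p Λ (fun S => I1 (JW S W x)) := by
        rw [hX]
        simp only
        rw [Ex_sum]
        refine Finset.sum_congr rfl (fun x _ => ?_)
        rw [Ex_const_mul]
      rw [this, sq, Finset.sum_mul_sum]
      refine Finset.sum_congr rfl (fun x _ => Finset.sum_congr rfl (fun y _ => ?_))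
      ring
    rw [s1, s2, ← Finset.sum_sub_distrib]
    refine Finset.sum_le_sum (fun x _ => ?_)
    rw [← Finset.sum_sub_distrib, Ex_sum]
    refine Finset.sum_le_sum (fun y _ => ?_)
    have hc := hCov p hp0 hp1 Λ ∅ W x y
    rw [Finset.empty_union] at hc
    have hb : 0 ≤ Ex p Λ (fun S => I1 (Bag S W x y)) :=
      Ex_nonneg hp0 hp1 (fun _ _ => I1_nonneg _)
    have haa0 : 0 ≤ a x * a y := mul_nonneg (ha0 x) (ha0 y)
    have haa1 : a x * a y ≤ 1 := by
      have := mul_le_mul (ha1 x) (ha1 y) (ha0 y) zero_le_one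
      simpa using this
    calc a x * a y * Ex p Λ (fun S => I1 (JW S W x) * I1 (JW S W y)) -
          a x * a y * (Ex p Λ (fun S => I1 (JW S W x)) * Ex p Λ (fun S => I1 (JW S W y)))
        = a x * a y * (Ex p Λ (fun S => I1 (JW S W x) * I1 (JW S W y)) -
            Ex p Λ (fun S => I1 (JW S W x)) * Ex p Λ (fun S => I1 (JW S W y))) := by ring
      _ ≤ a x * a y * Ex p Λ (fun S => I1 (Bag S W x y)) :=
          mul_le_mul_of_nonneg_left (by linarith) haa0
      _ ≤ 1 * Ex p Λ (fun S => I1 (Bag S W x y)) := mul_le_mul_of_nonneg_right haa1 hb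
      _ = Ex p Λ (fun S => I1 (Bag S W x y)) := one_mul _
  refine (Ex_mono hh0.le hh1 hW).trans ?_
  rw [Ex_sum]
  have hx : ∀ x ∈ F, Ex h F (fun W => Ex p Λ (fun S => ∑ y ∈ F, I1 (Bag S W x y))) ≤ 4 / h := by
    intro x hxF
    rw [← Ex_comm p h Λ F (fun S W => ∑ y ∈ F, I1 (Bag S W x y))]
    exact Ex_le_const hp0 hp1
      (fun S hS => hBag h hh0 hh1 F S (fun e he => hΛ e (hS he)) x hxF)
  calc ∑ x ∈ F, Ex h F (fun W => Ex p Λ (fun S => ∑ y ∈ F, I1 (Bag S W x y)))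
      ≤ ∑ _x ∈ F, (4 / h) := Finset.sum_le_sum hx
    _ = 4 / h * F.card := by rw [Finset.sum_const, nsmul_eq_mul]; ring

/-- **The variance bound.** -/
theorem varStmt : Stmts.VarStmt V := var_of covStmt bagStmt

end Vale.Agent.P151.QP
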