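import Vale.Agent.P151.QP.Bag
import Vale.Agent.P151.QP.Cov

/-!
# (S) the window drop

`S ⊆ Λ` open edges (law `Ex p Λ`); three independent ghost sets `J`, `A`, `B` of densities `h1`,
`h2`, `h3`. The event: `b` joined to `J ∪ A`, `o` joined to `A ∪ B` and not to `A`.
-/

set_option autoImplicit false
set_option linter.unusedSectionVars false

open Finset

namespace Vale.Agent.P151.QP

open Vale.Agent.P151

universe u
variable {V : Type u} [DecidableEq V]

/-! ### Ghost averages for a fixed configuration -/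

lemma win_Ex_JW {h : ℝ} {Λ S : Finset (Sym2 V)} {F : Finset V}
    (hΛF : ∀ e ∈ Λ, ∀ v ∈ e, v ∈ F) (hS : S ⊆ Λ) {x : V} (hx : x ∈ F) :
    Ex h F (fun W => I1 (JW S W x)) = gh h x S := by
  classical
  have h1 := Ex_hit h F (cl S x)
  have h2 : cl S x ∩ F = cl S x := inter_eq_left.2 (cl_subset_of hΛF hS hx)
  rw [h2] at h1
  rw [gh, csz, ← h1]
  apply Ex_congr
  intro W _
  have : JW S W x ↔ ∃ z ∈ W, z ∈ cl S x := by
    unfold JW
    simp only [mem_cl]
  by_cases h3 : JW S W x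
  · rw [I1_true h3, if_pos (this.1 h3)]
  · rw [I1_false h3, if_neg (fun h => h3 (this.2 h))]

lemma win_Ex_not_JW {h : ℝ} {Λ S : Finset (Sym2 V)} {F : Finset V}
    (hΛF : ∀ e ∈ Λ, ∀ v ∈ e, v ∈ F) (hS : S ⊆ Λ) {x : V} (hx : x ∈ F) :
    Ex h F (fun W => 1 - I1 (JW S W x)) = (1 - h) ^ csz S x := by
  rw [Ex_sub, Ex_const, win_Ex_JW hΛF hS hx, gh]
  ring

/-- `k (1 - q) ^ k ≤ 1 / q`. -/
lemma win_mul_pow_le {q : ℝ} (h0 : 0 < q) (h1 : q ≤ 1) (k : ℕ) :
    (k : ℝ) * (1 - q) ^ k ≤ 1 / q := by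
  have h2 : (1 + q) * (1 - q) ≤ 1 := by nlinarith
  have h3 : (1 + q) ^ k * (1 - q) ^ k ≤ 1 := by
    rw [← mul_pow]
    exact pow_le_one₀ (mul_nonneg (by linarith) (by linarith)) h2
  have h4 : 1 + k * q ≤ (1 + q) ^ k := one_add_mul_le_pow (by linarith) k
  have h5 : 0 ≤ (1 - q) ^ k := pow_nonneg (by linarith) k
  rw [le_div_iff₀ h0]
  nlinarith

/-- `1 - (1 - r) ^ k ≤ m r` for `k < m`. -/
lemma win_gh_le {r : ℝ} (hr0 : 0 ≤ r) (hr1 : r ≤ 1) (S : Finset (Sym2 V)) (x : V) (m : ℕ) :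
    I1 (csz S x < m) * gh r x S ≤ r * m := by
  by_cases h : csz S x < m
  · rw [I1_true h, one_mul, gh]
    have h5 := one_add_mul_le_pow (a := -r) (by linarith) (csz S x)
    have h6 : (1 : ℝ) + -r = 1 - r := by ring
    rw [h6] at h5
    have h7 : (csz S x : ℝ) ≤ m := by exact_mod_cast h.le
    nlinarith only [h5, h7, hr0]
  · rw [I1_false h, zero_mul]; positivity

/-! ### Three ghost sets -/

/-- Average over three independent ghost sets. -/
noncomputable def T3 (h1 h2 h3 : ℝ) (F : Finset V) (f : Finset V → Finset V → Finset V → ℝ) : ℝ :=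
  Ex h1 F (fun J => Ex h2 F (fun A => Ex h3 F (fun B => f J A B)))

lemma T3_mono {h1 h2 h3 : ℝ} (h10 : 0 ≤ h1) (h11 : h1 ≤ 1) (h20 : 0 ≤ h2) (h21 : h2 ≤ 1)
    (h30 : 0 ≤ h3) (h31 : h3 ≤ 1) {F : Finset V}
    {f g : Finset V → Finset V → Finset V → ℝ} (h : ∀ J A B, f J A B ≤ g J A B) :
    T3 h1 h2 h3 F f ≤ T3 h1 h2 h3 F g :=
  Ex_mono h10 h11 fun J _ => Ex_mono h20 h21 fun A _ => Ex_mono h30 h31 fun B _ => h J A B

lemma T3_Ex (p h1 h2 h3 : ℝ) (Λ : Finset (Sym2 V)) (F : Finset V)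
    (f : Finset (Sym2 V) → Finset V → Finset V → Finset V → ℝ) :
    T3 h1 h2 h3 F (fun J A B => Ex p Λ (fun S => f S J A B)) =
      Ex p Λ (fun S => T3 h1 h2 h3 F (f S)) := by
  unfold T3
  simp_rw [Ex_comm h3 p F Λ]
  simp_rw [Ex_comm h2 p F Λ]
  simp_rw [Ex_comm h1 p F Λ]

/-- The event of the window drop. -/
noncomputable def Ph (b o : V) (S : Finset (Sym2 V)) (J A B : Finset V) : ℝ :=
  I1 (JW S (J ∪ A) b) * (I1 (JW S (A ∪ B) o) - I1 (JW S A o))

lemma win_JW_mono (W : Finset V) (x : V) :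
    Monotone (fun S : Finset (Sym2 V) => I1 (JW S W x)) := fun _ _ h =>
  I1_mono (JW.mono h (Subset.refl W))

lemma win_lower_fixed {p : ℝ} (h0 : 0 ≤ p) (h1 : p ≤ 1) (Λ : Finset (Sym2 V))
    (b o : V) (J A B : Finset V) :
    Ex p Λ (fun S => I1 (JW S J b)) *
        (Ex p Λ (fun S => I1 (JW S (A ∪ B) o)) - Ex p Λ (fun S => I1 (JW S A o))) -
      Ex p Λ (fun S => I1 (Bag S A o b)) ≤ Ex p Λ (fun S => Ph b o S J A B) := by
  have e1 : Ex p Λ (fun S => Ph b o S J A B) =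
      Ex p Λ (fun S => I1 (JW S (J ∪ A) b) * I1 (JW S (A ∪ B) o)) -
        Ex p Λ (fun S => I1 (JW S (J ∪ A) b) * I1 (JW S A o)) := by
    rw [← Ex_sub]
    apply Ex_congr
    intro S _
    unfold Ph
    ring
  have e2 := harris h0 h1 Λ (win_JW_mono (J ∪ A) b) (win_JW_mono (A ∪ B) o)
  have e3 := covStmt p h0 h1 Λ J A b o
  have e4 : Ex p Λ (fun S => I1 (JW S J b)) ≤ Ex p Λ (fun S => I1 (JW S (J ∪ A) b)) :=
    Ex_mono h0 h1 fun S _ => I1_mono (JW.mono (Subset.refl S) subset_union_left)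
  have e5 : Ex p Λ (fun S => I1 (JW S A o)) ≤ Ex p Λ (fun S => I1 (JW S (A ∪ B) o)) :=
    Ex_mono h0 h1 fun S _ => I1_mono (JW.mono (Subset.refl S) subset_union_left)
  have e7 : Ex p Λ (fun S => I1 (Bag S A b o)) ≤ Ex p Λ (fun S => I1 (Bag S A o b)) :=
    Ex_mono h0 h1 fun S _ => I1_mono Bag.symm
  rw [e1]
  have e6 := mul_le_mul_of_nonneg_right e4 (sub_nonneg.2 e5)
  linarith only [e2, e3, e6, e7]

/-- Average of the product term. -/
lemma T3_prod (h1 h2 h3 : ℝ) (F : Finset V) (g : Finset V → ℝ) (h : Finset V → Finset V → ℝ)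
    (k : Finset V → ℝ) :
    T3 h1 h2 h3 F (fun J A B => g J * h A B - k A) =
      Ex h1 F g * Ex h2 F (fun A => Ex h3 F (fun B => h A B)) - Ex h2 F k := by
  unfold T3
  have e1 : ∀ J : Finset V, Ex h2 F (fun A => Ex h3 F (fun B => g J * h A B - k A)) =
      g J * Ex h2 F (fun A => Ex h3 F (fun B => h A B)) - Ex h2 F k := by
    intro J
    have e2 : ∀ A : Finset V, Ex h3 F (fun B => g J * h A B - k A) =
        g J * Ex h3 F (fun B => h A B) - k A := by
      intro A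
      rw [Ex_sub, Ex_const, Ex_const_mul]
    simp_rw [e2]
    rw [Ex_sub, Ex_const_mul]
  simp_rw [e1]
  rw [Ex_sub, Ex_const, Ex_mul_const]

/-- For a fixed configuration: the average of the window event. -/
lemma win_fixed {h2 h3 : ℝ} {Λ S : Finset (Sym2 V)} {F : Finset V}
    (hΛF : ∀ e ∈ Λ, ∀ v ∈ e, v ∈ F) (hS : S ⊆ Λ) {o : V} (ho : o ∈ F) :
    Ex h2 F (fun A => Ex h3 F (fun B => I1 (JW S (A ∪ B) o) - I1 (JW S A o))) = ww h2 h3 o S := by
  have e1 : ∀ A B : Finset V, I1 (JW S (A ∪ B) o) - I1 (JW S A o) =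
      (1 - I1 (JW S A o)) * I1 (JW S B o) := by
    intro A B
    by_cases hA : JW S A o
    · rw [I1_true (JW_union.2 (Or.inl hA)), I1_true hA]; ring
    · by_cases hB : JW S B o
      · rw [I1_true (JW_union.2 (Or.inr hB)), I1_false hA, I1_true hB]; ring
      · rw [I1_false (fun h => (JW_union.1 h).elim hA hB), I1_false hA, I1_false hB]; ring
  simp_rw [e1, Ex_const_mul]
  rw [Ex_mul_const, win_Ex_not_JW hΛF hS ho, win_Ex_JW hΛF hS ho]
  rfl

/-- Pointwise upper bound of the window-drop event. -/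
lemma Ph_le (m : ℕ) (b o : V) (S : Finset (Sym2 V)) (J A B : Finset V) :
    Ph b o S J A B ≤ I1 (Cn S o b) * (1 - I1 (JW S A o)) + DD m o b S +
      I1 (csz S o < m) * I1 (JW S B o) +
      I1 (csz S b < m) * (I1 (JW S J b) + I1 (JW S A b)) := by
  have n1 : 0 ≤ DD m o b S := I1_nonneg _
  have n2 := mul_nonneg (I1_nonneg (csz S o < m)) (I1_nonneg (JW S B o))
  have n3 := mul_nonneg (I1_nonneg (csz S b < m))
    (add_nonneg (I1_nonneg (JW S J b)) (I1_nonneg (JW S A b)))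
  have n4 := mul_nonneg (I1_nonneg (Cn S o b)) (sub_nonneg.2 (I1_le_one (JW S A o)))
  unfold Ph
  by_cases hA : JW S A o
  · rw [I1_true (JW_union.2 (Or.inl hA)), I1_true hA]
    rw [I1_true hA] at n4
    linarith only [n1, n2, n3, n4]
  · rw [I1_false hA] at n4 ⊢
    by_cases hB : JW S B o
    · rw [I1_true (JW_union.2 (Or.inr hB))]
      by_cases hJ : JW S (J ∪ A) b
      · rw [I1_true hJ]
        by_cases hc : Cn S o b
        · rw [I1_true hc]
          linarith only [n1, n2, n3]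
        · by_cases ho : csz S o < m
          · rw [I1_true ho, I1_true hB]
            linarith only [n1, n4, n3]
          · by_cases hb : csz S b < m
            · rw [I1_true hb]
              have h5 : (1 : ℝ) ≤ I1 (JW S J b) + I1 (JW S A b) := by
                rcases JW_union.1 hJ with h | h
                · rw [I1_true h]; linarith only [I1_nonneg (JW S A b)]
                · rw [I1_true h]; linarith only [I1_nonneg (JW S J b)]
              linarith only [n1, n2, n4, h5]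
            · have h6 : DD m o b S = 1 := I1_true ⟨hc, not_lt.1 ho, not_lt.1 hb⟩
              rw [h6]
              linarith only [n2, n3, n4]
      · rw [I1_false hJ]
        linarith only [n1, n2, n3, n4]
    · rw [I1_false (fun h => (JW_union.1 h).elim hA hB)]
      linarith only [n1, n2, n3, n4]

lemma T3_Ph_le {h1 h2 h3 : ℝ} (h10 : 0 ≤ h1) (h11 : h1 ≤ 1) (h20 : 0 ≤ h2) (h21 : h2 ≤ 1)
    (h30 : 0 ≤ h3) (h31 : h3 ≤ 1) {Λ S : Finset (Sym2 V)} {F : Finset V}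
    (hΛF : ∀ e ∈ Λ, ∀ v ∈ e, v ∈ F) (hS : S ⊆ Λ) (m : ℕ) {b o : V} (ho : o ∈ F) (hb : b ∈ F) :
    T3 h1 h2 h3 F (Ph b o S) ≤ I1 (Cn S o b) * (1 - h2) ^ csz S o + DD m o b S +
      (h1 + h2 + h3) * m := by
  refine (T3_mono (F := F) h10 h11 h20 h21 h30 h31 (Ph_le m b o S)).trans ?_
  have e2 : T3 h1 h2 h3 F (fun J A B => I1 (Cn S o b) * (1 - I1 (JW S A o)) + DD m o b S +
      I1 (csz S o < m) * I1 (JW S B o) +
      I1 (csz S b < m) * (I1 (JW S J b) + I1 (JW S A b))) =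
      I1 (Cn S o b) * (1 - h2) ^ csz S o + DD m o b S +
      I1 (csz S o < m) * gh h3 o S +
      I1 (csz S b < m) * (gh h1 b S + gh h2 b S) := by
    unfold T3
    simp_rw [Ex_add, Ex_const_mul, Ex_add, Ex_const]
    rw [win_Ex_not_JW hΛF hS ho, win_Ex_JW hΛF hS ho, win_Ex_JW hΛF hS hb, win_Ex_JW hΛF hS hb]
  rw [e2]
  have e3 := win_gh_le h30 h31 S o m
  have e4 := win_gh_le h10 h11 S b m
  have e5 := win_gh_le h20 h21 S b m
  linarith only [e3, e4, e5]

/-- **Window drop**, at one point `o`, with weights `K`. -/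
theorem window_point {p : ℝ} (h0 : 0 ≤ p) (h1 : p ≤ 1) {Λ : Finset (Sym2 V)} {F : Finset V}
    (hΛF : ∀ e ∈ Λ, ∀ v ∈ e, v ∈ F) {U : Finset V} (hU : U ⊆ F) {o : V} (ho : o ∈ F)
    (K : V → ℝ) (hK0 : ∀ b ∈ U, 0 ≤ K b) {κ : ℝ} (hκ0 : 0 ≤ κ) (hKκ : ∀ b ∈ U, K b ≤ κ)
    (hK1 : ∑ b ∈ U, K b ≤ 1) {g1 g2 g3 c : ℝ} (hg1 : 0 ≤ g1) (hg1' : g1 ≤ 1) (hg2 : 0 < g2)
    (hg2' : g2 ≤ 1) (hg3 : 0 ≤ g3) (hg3' : g3 ≤ 1)
    (hc : ∀ b ∈ U, c ≤ Ex p Λ (gh g1 b)) (m : ℕ) :
    c * ((∑ b ∈ U, K b) * Ex p Λ (ww g2 g3 o)) ≤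
      3 * κ / g2 + ∑ b ∈ U, K b * PD p Λ m o b + (g1 + g2 + g3) * m := by
  set P : ℝ := Ex p Λ (ww g2 g3 o) with hP
  have hP0 : 0 ≤ P := Ex_nonneg h0 h1 fun S _ =>
    mul_nonneg (pow_nonneg (by linarith) _) (sub_nonneg.2 (pow_le_one₀ (by linarith) (by linarith)))
  -- lower bound for every `b`
  have low : ∀ b ∈ U, c * P - Ex p Λ (fun S => Ex g2 F (fun A => I1 (Bag S A o b))) ≤
        T3 g1 g2 g3 F (fun J A B => Ex p Λ (fun S => Ph b o S J A B)) := by
    intro b hb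
    have e1 := T3_mono (F := F) hg1 hg1' hg2.le hg2' hg3 hg3'
      (fun J A B => win_lower_fixed h0 h1 Λ b o J A B)
    have e2 := T3_prod g1 g2 g3 F (fun J => Ex p Λ (fun S => I1 (JW S J b)))
      (fun A B => Ex p Λ (fun S => I1 (JW S (A ∪ B) o)) - Ex p Λ (fun S => I1 (JW S A o)))
      (fun A => Ex p Λ (fun S => I1 (Bag S A o b)))
    rw [e2] at e1
    have e3 : Ex g1 F (fun J => Ex p Λ (fun S => I1 (JW S J b))) = Ex p Λ (gh g1 b) := by
      rw [Ex_comm]
      apply Ex_congr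
      intro S hS
      exact win_Ex_JW hΛF hS (hU hb)
    have e5 : Ex g2 F (fun A => Ex g3 F (fun B => Ex p Λ (fun S => I1 (JW S (A ∪ B) o)) -
        Ex p Λ (fun S => I1 (JW S A o)))) = P := by
      simp_rw [← Ex_sub]
      simp_rw [Ex_comm g3 p F Λ]
      simp_rw [Ex_comm g2 p F Λ]
      apply Ex_congr
      intro S hS
      exact win_fixed hΛF hS ho
    have e7 : Ex g2 F (fun A => Ex p Λ (fun S => I1 (Bag S A o b))) =
        Ex p Λ (fun S => Ex g2 F (fun A => I1 (Bag S A o b))) := Ex_comm _ _ _ _ _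
    rw [e3, e5, e7] at e1
    have e8 := mul_le_mul_of_nonneg_right (hc b hb) hP0
    linarith only [e1, e8]
  -- upper bound for every `b`
  have up : ∀ b ∈ U, T3 g1 g2 g3 F (fun J A B => Ex p Λ (fun S => Ph b o S J A B)) ≤
      Ex p Λ (fun S => I1 (Cn S o b) * (1 - g2) ^ csz S o) + PD p Λ m o b +
        (g1 + g2 + g3) * m := by
    intro b hb
    rw [T3_Ex]
    have e1 : Ex p Λ (fun S => T3 g1 g2 g3 F (Ph b o S)) ≤
        Ex p Λ (fun S => I1 (Cn S o b) * (1 - g2) ^ csz S o + DD m o b S +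
          (g1 + g2 + g3) * m) :=
      Ex_mono h0 h1 fun S hS => T3_Ph_le hg1 hg1' hg2.le hg2' hg3 hg3' hΛF hS m ho (hU hb)
    rw [Ex_add, Ex_add, Ex_const] at e1
    exact e1
  -- weigh and sum
  have s1 : (∑ b ∈ U, K b) * (c * P) -
      ∑ b ∈ U, K b * Ex p Λ (fun S => Ex g2 F (fun A => I1 (Bag S A o b))) ≤
      ∑ b ∈ U, K b * Ex p Λ (fun S => I1 (Cn S o b) * (1 - g2) ^ csz S o) +
        ∑ b ∈ U, K b * PD p Λ m o b + (∑ b ∈ U, K b) * ((g1 + g2 + g3) * m) := by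
    rw [sum_mul, sum_mul, ← sum_sub_distrib, ← sum_add_distrib, ← sum_add_distrib]
    apply sum_le_sum
    intro b hb
    have h2 := mul_le_mul_of_nonneg_left ((low b hb).trans (up b hb)) (hK0 b hb)
    linarith only [h2]
  -- the bag term
  have s2 : ∑ b ∈ U, K b * Ex p Λ (fun S => Ex g2 F (fun A => I1 (Bag S A o b))) ≤
      κ * (2 / g2) := by
    have h2 : ∑ b ∈ U, K b * Ex p Λ (fun S => Ex g2 F (fun A => I1 (Bag S A o b))) ≤
        ∑ b ∈ F, κ * Ex p Λ (fun S => Ex g2 F (fun A => I1 (Bag S A o b))) := by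
      refine le_trans (sum_le_sum (g := fun b => κ * Ex p Λ (fun S => Ex g2 F
        (fun A => I1 (Bag S A o b)))) fun b hb => ?_) ?_
      · exact mul_le_mul_of_nonneg_right (hKκ b hb)
          (Ex_nonneg h0 h1 fun S _ => Ex_nonneg hg2.le hg2' fun A _ => I1_nonneg _)
      · apply sum_le_sum_of_subset_of_nonneg hU
        intro b _ _
        exact mul_nonneg hκ0
          (Ex_nonneg h0 h1 fun S _ => Ex_nonneg hg2.le hg2' fun A _ => I1_nonneg _)
    rw [← mul_sum, ← Ex_sum] at h2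
    refine h2.trans (mul_le_mul_of_nonneg_left ?_ hκ0)
    apply Ex_le_const h0 h1
    intro S hS
    rw [← Ex_sum]
    exact bag_bound hg2 hg2' F S o
  -- the own cluster
  have s3 : ∑ b ∈ U, K b * Ex p Λ (fun S => I1 (Cn S o b) * (1 - g2) ^ csz S o) ≤
      κ * (1 / g2) := by
    have h2 : ∑ b ∈ U, K b * Ex p Λ (fun S => I1 (Cn S o b) * (1 - g2) ^ csz S o) ≤
        ∑ b ∈ U, κ * Ex p Λ (fun S => I1 (Cn S o b) * (1 - g2) ^ csz S o) := by
      apply sum_le_sum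
      intro b hb
      exact mul_le_mul_of_nonneg_right (hKκ b hb) (Ex_nonneg h0 h1 fun S _ =>
        mul_nonneg (I1_nonneg _) (pow_nonneg (by linarith) _))
    rw [← mul_sum, ← Ex_sum] at h2
    refine h2.trans (mul_le_mul_of_nonneg_left ?_ hκ0)
    apply Ex_le_const h0 h1
    intro S hS
    rw [← sum_mul]
    have h3 : ∑ b ∈ U, I1 (Cn S o b) ≤ csz S o := by
      classical
      have e0 : ∀ b ∈ U, I1 (Cn S o b) = if Cn S o b then (1 : ℝ) else 0 := by
        intro b _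
        by_cases h : Cn S o b
        · rw [I1_true h, if_pos h]
        · rw [I1_false h, if_neg h]
      rw [sum_congr rfl e0]
      rw [sum_ite, sum_const_zero, add_zero, sum_const, nsmul_eq_mul, mul_one]
      have : (U.filter (fun b => Cn S o b)).card ≤ csz S o := by
        apply card_le_card
        intro b hb
        exact mem_cl.2 (mem_filter.1 hb).2
      exact_mod_cast this
    have h4 : (0 : ℝ) ≤ (1 - g2) ^ csz S o := pow_nonneg (by linarith) _
    have h5 := win_mul_pow_le hg2 hg2' (csz S o)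
    exact (mul_le_mul_of_nonneg_right h3 h4).trans h5
  have s4 : (∑ b ∈ U, K b) * ((g1 + g2 + g3) * m) ≤ (g1 + g2 + g3) * m := by
    have h3 : (0 : ℝ) ≤ (g1 + g2 + g3) * m := by positivity
    nlinarith only [h3, hK1]
  have s5 : κ * (2 / g2) + κ * (1 / g2) = 3 * κ / g2 := by ring
  linarith only [s1, s2, s3, s4, s5]

/-- **(S) the window drop.** -/
theorem windowStmt : Stmts.WindowStmt V := by
  intro p h0 h1 F U Λ hU hΛF K hK κ hκ g1 g2 g3 c hg1 hg1' hg2 hg2' hg3 hg3' _ hc m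
  obtain ⟨hK0, hKr, -⟩ := hK
  by_cases hne : U.Nonempty
  swap
  · rw [not_nonempty_iff_eq_empty] at hne
    subst hne
    rw [sum_empty, sum_empty, mul_zero, add_zero]
    by_cases hF : F.Nonempty
    · obtain ⟨x, _⟩ := hF
      have hκ0 : 0 ≤ κ := (hK0 x x).trans (hκ x x)
      positivity
    · rw [not_nonempty_iff_eq_empty] at hF
      subst hF
      simp
  obtain ⟨x0, hx0⟩ := hne
  have hκ0 : 0 ≤ κ := (hK0 x0 x0).trans (hκ x0 x0)
  have key : ∀ o ∈ U, c * ((∑ b ∈ U, K o b) * Ex p Λ (ww g2 g3 o)) ≤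
      5 * κ / g2 + ∑ b ∈ U, K o b * PD p Λ m o b + (g1 + g2 + g3) * m := by
    intro o ho
    have h2 := window_point h0 h1 hΛF hU (hU ho) (K o) (fun b _ => hK0 o b) hκ0
      (fun b _ => hκ o b) (hKr o ho) hg1.le hg1' hg2 hg2' hg3.le hg3' hc m
    have h3 : 3 * κ / g2 ≤ 5 * κ / g2 := by
      rw [div_le_div_iff_of_pos_right hg2]
      linarith only [hκ0]
    linarith only [h2, h3]
  have h4 := sum_le_sum key
  rw [← mul_sum, sum_add_distrib, sum_add_distrib, sum_const, sum_const, nsmul_eq_mul,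
    nsmul_eq_mul] at h4
  have hcard : (U.card : ℝ) ≤ F.card := by exact_mod_cast card_le_card hU
  have h5 : (U.card : ℝ) * (5 * κ / g2) ≤ 5 * κ * F.card / g2 := by
    have : 5 * κ * F.card / g2 = (F.card : ℝ) * (5 * κ / g2) := by ring
    rw [this]
    exact mul_le_mul_of_nonneg_right hcard (by positivity)
  have h6 : (U.card : ℝ) * ((g1 + g2 + g3) * m) ≤ (g1 + g2 + g3) * m * F.card := by
    rw [mul_comm]
    exact mul_le_mul_of_nonneg_left hcard (by positivity)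
  linarith only [h4, h5, h6]

end Vale.Agent.P151.QP
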