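import Vale.Agent.P151.QP.DropCore
import Vale.Agent.P151.QP.DropFol
import Vale.Agent.P151.QP.Ladder
import Vale.Agent.P151.QP.Ladder0
import Vale.Agent.P151.QP.Window
import Vale.Agent.P151.QP.Var
import Vale.Agent.P151.QP.Th
import Vale.Agent.P151.H820.Heat

/-!
# (D) The drop of the tail between `n` and `n ^ 2`
-/

set_option autoImplicit false
set_option linter.unusedSectionVars false

open Finset SimpleGraph

namespace Vale.Agent.P151.QP

open Vale.Agent.P151 Vale.Agent.P151.R2.H279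

universe u
variable {V : Type u} [DecidableEq V] {G : SimpleGraph V} [G.LocallyFinite]

theorem core (hG : G.Connected) {R : Finset V} (hR : ∀ x : V, ∃ g : G ≃g G, g x ∈ R)
    (hAm : IsAmenable G) : CoreStmt G := by
  classical
  obtain ⟨d, hd1, hd⟩ : ∃ d : ℕ, 1 ≤ d ∧ ∀ v, G.degree v ≤ d := by
    obtain ⟨b, hb1, hb⟩ := ball_bound hG (reps' hR) 1
    refine ⟨b, hb1, fun v => le_trans ?_ (hb v)⟩
    rw [← SimpleGraph.card_neighborFinset_eq_degree]
    apply Finset.card_le_card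
    intro w hw
    rw [SimpleGraph.mem_neighborFinset] at hw
    rw [mem_ballF_iff hG, SimpleGraph.dist_comm]
    exact (SimpleGraph.dist_eq_one_iff_adj.2 hw).le
  intro p0 c0 hp0 hc0
  obtain ⟨C, hC1, hC⟩ := drop_core hG hd1 hd (ladder V varStmt Th.thUp Th.thLow)
    (ladder0 varStmt Th.thLow) windowStmt (H820.heat hG hR hAm hd1 hd) p0 c0 hp0 hc0
  refine ⟨C, hC1, ?_⟩
  intro p n J Γ r hp hp1 hphi hn hΓ hm hvol hJ F P hPF hP
  have hn0 : (2 : ℝ) ≤ n := by exact_mod_cast hn
  have hn1 : 1 / (n : ℝ) ≤ 1 := by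
    rw [div_le_one (by linarith)]; linarith
  have hn2 : 1 / (n : ℝ) ^ 2 ≤ 1 := by
    rw [div_le_one (by positivity)]
    exact one_le_pow₀ (by linarith)
  refine le_trans ?_ (hC p n J Γ r hp hp1 hphi hn hΓ hm hvol hJ F)
  apply Finset.sum_le_sum_of_subset_of_nonneg
  · intro o ho
    rw [Finset.mem_filter]
    exact ⟨hPF ho, hP o ho⟩
  · intro o _ _
    exact Ex_nonneg (hp0.le.trans hp) hp1 fun S _ =>
      ww_nonneg (by positivity) hn2 (by positivity) hn1 o S

/-- **(D)** -/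
theorem drop [Infinite V] (hG : G.Connected) {R : Finset V}
    (hR : ∀ x : V, ∃ g : G ≃g G, g x ∈ R) (hAm : IsAmenable G) : Stmts.DropStmt G :=
  drop_of_core hG hR hAm (core hG hR hAm)

end Vale.Agent.P151.QP
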