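import Vale.Agent.P151.QP.Frame

/-!
# (K2) The amenable case, from `DropStmt` and `ParamStmt`
-/

set_option autoImplicit false
set_option linter.unusedSectionVars false

open Finset SimpleGraph Filter Topology

namespace Vale.Agent.P151.QP

open Vale.Agent.P151 Vale.Agent.P151.QP.Stmts Vale.Agent.P151.R2.H279
open MeasureTheory ProbabilityTheory unitInterval

universe u
variable {V : Type u} [DecidableEq V]

/-- The growth condition implies that the graph is infinite. -/
lemma infinite_of_growth2 {G : SimpleGraph V} [G.LocallyFinite] {o : V} (h : Growth G o) :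
    Infinite V := by
  rw [← not_finite_iff_infinite]
  intro hfin
  have := Fintype.ofFinite V
  obtain ⟨N, hN⟩ := h 1
  have hlim : Tendsto (fun n : ℕ => Real.log (n : ℝ)) atTop atTop :=
    Real.tendsto_log_atTop.comp tendsto_natCast_atTop_atTop
  obtain ⟨n, hn1, hn2⟩ := ((eventually_ge_atTop N).and
    (hlim.eventually (eventually_ge_atTop ((Fintype.card V : ℝ) + 1)))).exists
  have h1 := hN n hn1
  have h2 : ((ballF G o n).card : ℝ) ≤ Fintype.card V := by
    exact_mod_cast Finset.card_le_univ (ballF G o n)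
  have h3 := Real.add_one_le_exp (1 * Real.log (n : ℝ) ^ 2)
  have h4 : (0 : ℝ) ≤ Fintype.card V := Nat.cast_nonneg _
  nlinarith

/-- The amenable case. -/
theorem amenable_case2 {G : SimpleGraph V} [G.LocallyFinite] (hG : G.Connected)
    (hQ : IsQuasiTransitive G) (hpc1 : pc G < 1) (hdrop : DropStmt G) (hpar : ParamStmt G)
    (p : I) (hp : (p : ℝ) = pc G) :
    setBernoulli G.edgeSet p (hasInfiniteCluster V) = 0 := by
  have hpc0 : 0 ≤ pc G := pc_nonneg G
  rcases hpc0.eq_or_lt with hz | hpos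
  · exact no_infinite_zero G hG p (by rw [hp, ← hz])
  obtain ⟨R, hR⟩ := hQ
  have hR' : ∀ x : V, ∃ g : G ≃g G, g x ∈ R := by
    intro x
    obtain ⟨y, hy, φ, rfl⟩ := hR x
    exact ⟨φ.symm, by simpa using hy⟩
  apply no_infinite_of_phiB G hG p
  intro x
  by_contra hcon
  push Not at hcon
  obtain ⟨θ, hθ, hθn⟩ := hcon
  obtain ⟨c', hc', _, hSF⟩ := SF_le_phi (G := G) hG hR hpos
  apply no_jump2 hG hR' hpos hpc1 hdrop hpar (θ := c' * θ) (by positivity)
  intro n y
  have h1 := hSF (pc G) le_rfl hpc1.le n y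
  rw [phi_eq_phiB hG hpc0 hpc1.le] at h1
  refine le_trans ?_ h1
  apply mul_le_mul_of_nonneg_left _ hc'.le
  have h2 := phi_le_SF (G := G) hR hpc0 hpc1.le n x
  rw [phi_eq_phiB hG hpc0 hpc1.le] at h2
  refine le_trans ?_ h2
  have h3 := hθn n
  rw [hp] at h3
  exact h3

end Vale.Agent.P151.QP
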