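import Vale.Agent.P151.QP.Stmts

/-!
# (K1) The choice of the parameters

For `G` growing faster than `n ^ (A log n)` for every `A`, the parameters `J`, `Γ = 2 ^ g`,
`r = 2 ^ i` at the scale `n = 2 ^ 2 ^ k` are `i = √(2 ^ k / B)`, `J = c0 + 2 i + k + 1`,
`g = (c0 + 3) (J + 1)`, where `C ≤ 2 ^ c0` and `B = 54 (c0 + 3)`.
-/

set_option autoImplicit false

open Finset SimpleGraph

namespace Vale.Agent.P151.QP

open Vale.Agent.P151

universe u
variable {V : Type u} [DecidableEq V] {G : SimpleGraph V} [G.LocallyFinite]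

/-- **(K1)** -/
theorem param (hG : G.Connected) {R : Finset V} (hR : ∀ x : V, ∃ g : G ≃g G, g x ∈ R) {o : V}
    (hgr : Stmts.Growth G o) : Stmts.ParamStmt G := by
  intro C hC
  obtain ⟨c0, hc0⟩ : ∃ c0 : ℕ, C ≤ 2 ^ c0 := by
    obtain ⟨c0, hc0⟩ := pow_unbounded_of_one_lt C (show (1 : ℝ) < 2 by norm_num)
    exact ⟨c0, hc0.le⟩
  obtain ⟨B, hB⟩ : ∃ B : ℕ, B = 54 * (c0 + 3) := ⟨_, rfl⟩
  have hBpos : 0 < B := by omega
  obtain ⟨D, hD⟩ := R2.H279.cobounded hG hR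
  obtain ⟨N, hN⟩ := hgr (48 * B)
  obtain ⟨K1, hK1⟩ := R2.H279.sq_le_two_pow (B * (c0 + 2) ^ 2)
  refine ⟨max K1 (max 8 (max (D + 1) (max (N + 1) (2 * c0 + 8)))), fun k hk => ?_⟩
  have hkK1 : K1 ≤ k := le_trans (le_max_left _ _) hk
  have hk' : max 8 (max (D + 1) (max (N + 1) (2 * c0 + 8))) ≤ k := le_trans (le_max_right _ _) hk
  have hk3 : 8 ≤ k := le_trans (le_max_left _ _) hk'
  have hk'' : max (D + 1) (max (N + 1) (2 * c0 + 8)) ≤ k := le_trans (le_max_right _ _) hk'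
  have hkD : D + 1 ≤ k := le_trans (le_max_left _ _) hk''
  have hk''' : max (N + 1) (2 * c0 + 8) ≤ k := le_trans (le_max_right _ _) hk''
  have hkN : N + 1 ≤ k := le_trans (le_max_left _ _) hk'''
  have hkc : 2 * c0 + 8 ≤ k := le_trans (le_max_right _ _) hk'''
  obtain ⟨i, hi⟩ : ∃ i : ℕ, i = Nat.sqrt (2 ^ k / B) := ⟨_, rfl⟩
  have hi1 : i * i ≤ 2 ^ k / B := by rw [hi]; exact Nat.sqrt_le _
  have hi2 : 2 ^ k / B < (i + 1) * (i + 1) := by rw [hi]; exact Nat.lt_succ_sqrt _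
  have hi3 : B * (i * i) ≤ 2 ^ k := by
    calc B * (i * i) ≤ B * (2 ^ k / B) := Nat.mul_le_mul_left _ hi1
      _ ≤ 2 ^ k := Nat.mul_div_le _ _
  have hi4 : 2 ^ k < B * ((i + 1) * (i + 1)) := by
    rw [mul_comm]
    exact (Nat.div_lt_iff_lt_mul hBpos).1 hi2
  have hi5 : c0 + k + 2 ≤ i := by
    rw [hi, Nat.le_sqrt]
    rw [Nat.le_div_iff_mul_le hBpos]
    have h1 := hK1 k hkK1
    refine le_trans ?_ h1
    have h2 : c0 + k + 2 ≤ (c0 + 2) * (k + 1) := by nlinarith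
    calc (c0 + k + 2) * (c0 + k + 2) * B ≤ ((c0 + 2) * (k + 1)) * ((c0 + 2) * (k + 1)) * B :=
          Nat.mul_le_mul_right _ (Nat.mul_le_mul h2 h2)
      _ = B * (c0 + 2) ^ 2 * (k + 1) ^ 2 := by ring
  obtain ⟨J, hJ⟩ : ∃ J : ℕ, J = c0 + 2 * i + k + 1 := ⟨_, rfl⟩
  have hJ3 : J + 1 ≤ 3 * i := by omega
  obtain ⟨g, hg⟩ : ∃ g : ℕ, g = (c0 + 3) * (J + 1) := ⟨_, rfl⟩
  refine ⟨J, 2 ^ g, 2 ^ i, ?_, ?_, ?_, ?_, ?_⟩
  · calc 2 = 2 ^ 1 := by norm_num
      _ ≤ 2 ^ g := Nat.pow_le_pow_right (by norm_num) (by rw [hg]; nlinarith)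
  · rw [← pow_mul, ← pow_mul]
    apply Nat.pow_le_pow_right (by norm_num)
    calc g * ((2 + 3 * J) * 2) ≤ g * (6 * (J + 1)) := Nat.mul_le_mul_left _ (by omega)
      _ = 6 * (c0 + 3) * ((J + 1) * (J + 1)) := by rw [hg]; ring
      _ ≤ 6 * (c0 + 3) * ((3 * i) * (3 * i)) := Nat.mul_le_mul_left _ (Nat.mul_le_mul hJ3 hJ3)
      _ = B * (i * i) := by rw [hB]; ring
      _ ≤ 2 ^ k := hi3
  · -- the volume
    intro x
    obtain ⟨φ, hφ⟩ := hD o x
    have h1 : (ballF G o (2 ^ (i - 1))).card ≤ (ballF G x (2 ^ i)).card := by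
      rw [← card_ballF_aut hG φ]
      apply Finset.card_le_card
      intro z hz
      rw [mem_ballF_iff hG] at hz ⊢
      have h2 := hG.dist_triangle (u := z) (v := φ o) (w := x)
      have h3 : D ≤ 2 ^ (i - 1) := by
        have := Nat.lt_two_pow_self (n := i - 1)
        omega
      have h4 : 2 ^ i = 2 ^ (i - 1) + 2 ^ (i - 1) := by
        have : i = (i - 1) + 1 := by omega
        conv_lhs => rw [this, pow_succ]
        omega
      omega
    refine le_trans ?_ h1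
    have hNi : N ≤ 2 ^ (i - 1) := by
      have := Nat.lt_two_pow_self (n := i - 1)
      omega
    have h5 := hN (2 ^ (i - 1)) hNi
    have h6 : ((8 * (2 ^ (2 ^ k)) ^ 3 : ℕ) : ℝ) ≤
        Real.exp (48 * B * Real.log ((2 ^ (i - 1) : ℕ) : ℝ) ^ 2) := by
      have e1 : 8 * (2 ^ (2 ^ k)) ^ 3 = 2 ^ (3 * 2 ^ k + 3) := by
        rw [← pow_mul, pow_add]; ring
      have e2 : 3 * 2 ^ k + 3 ≤ 24 * B * ((i - 1) * (i - 1)) := by
        have f1 : i + 1 ≤ 2 * (i - 1) := by omega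
        have f2 : (i + 1) * (i + 1) ≤ 4 * ((i - 1) * (i - 1)) := by
          calc (i + 1) * (i + 1) ≤ (2 * (i - 1)) * (2 * (i - 1)) := Nat.mul_le_mul f1 f1
            _ = 4 * ((i - 1) * (i - 1)) := by ring
        have f3 : 1 ≤ 2 ^ k := Nat.one_le_two_pow
        calc 3 * 2 ^ k + 3 ≤ 6 * 2 ^ k := by omega
          _ ≤ 6 * (B * ((i + 1) * (i + 1))) := Nat.mul_le_mul_left _ hi4.le
          _ ≤ 6 * (B * (4 * ((i - 1) * (i - 1)))) :=
            Nat.mul_le_mul_left _ (Nat.mul_le_mul_left _ f2)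
          _ = 24 * B * ((i - 1) * (i - 1)) := by ring
      have e3 : ((3 * 2 ^ k + 3 : ℕ) : ℝ) ≤ ((24 * B * ((i - 1) * (i - 1)) : ℕ) : ℝ) := by
        exact_mod_cast e2
      have hl : (1 / 2 : ℝ) ≤ Real.log 2 := by
        have := Real.log_two_gt_d9
        linarith
      rw [e1]
      have e4 : ((2 ^ (3 * 2 ^ k + 3) : ℕ) : ℝ) =
          Real.exp (((3 * 2 ^ k + 3 : ℕ) : ℝ) * Real.log 2) := by
        rw [Real.exp_nat_mul, Real.exp_log (by norm_num)]
        push_cast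
        rfl
      rw [e4]
      apply Real.exp_le_exp.2
      have e5 : Real.log ((2 ^ (i - 1) : ℕ) : ℝ) = ((i - 1 : ℕ) : ℝ) * Real.log 2 := by
        push_cast
        rw [Real.log_pow]
      rw [e5]
      have hl0 : 0 ≤ Real.log 2 := by linarith
      calc ((3 * 2 ^ k + 3 : ℕ) : ℝ) * Real.log 2
          ≤ ((24 * B * ((i - 1) * (i - 1)) : ℕ) : ℝ) * Real.log 2 :=
            mul_le_mul_of_nonneg_right e3 hl0
        _ = 48 * B * (((i - 1 : ℕ) : ℝ) ^ 2) * (1 / 2 * Real.log 2) := by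
            push_cast; ring
        _ ≤ 48 * B * (((i - 1 : ℕ) : ℝ) ^ 2) * (Real.log 2 * Real.log 2) := by
            apply mul_le_mul_of_nonneg_left _ (by positivity)
            exact mul_le_mul_of_nonneg_right hl hl0
        _ = 48 * B * (((i - 1 : ℕ) : ℝ) * Real.log 2) ^ 2 := by ring
    exact_mod_cast h6.trans h5
  · -- the time
    have h1 : Real.log ((2 ^ (2 ^ k) : ℕ) : ℝ) ≤ 2 ^ k := by
      push_cast
      rw [Real.log_pow]
      push_cast
      have : Real.log 2 ≤ 1 := by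
        have := Real.log_two_lt_d9
        linarith
      have h2 : (0 : ℝ) ≤ 2 ^ k := by positivity
      nlinarith
    have h2 : 1 + Real.log ((2 ^ (2 ^ k) : ℕ) : ℝ) ≤ 2 ^ (k + 1) := by
      have : (1 : ℝ) ≤ 2 ^ k := one_le_pow₀ (by norm_num)
      rw [pow_succ]
      linarith
    have h3 : 0 ≤ 1 + Real.log ((2 ^ (2 ^ k) : ℕ) : ℝ) := by
      have : 0 ≤ Real.log ((2 ^ (2 ^ k) : ℕ) : ℝ) := by
        apply Real.log_nonneg
        exact_mod_cast Nat.one_le_two_pow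
      linarith
    calc C * ((2 ^ i : ℕ) : ℝ) ^ 2 * (1 + Real.log ((2 ^ (2 ^ k) : ℕ) : ℝ))
        ≤ 2 ^ c0 * ((2 ^ i : ℕ) : ℝ) ^ 2 * 2 ^ (k + 1) := by
          apply mul_le_mul _ h2 h3 (by positivity)
          exact mul_le_mul_of_nonneg_right hc0 (by positivity)
      _ = 2 ^ J := by
          push_cast
          rw [hJ, ← pow_mul, ← pow_add, ← pow_add]
          congr 1
          ring
  · -- the error
    have hC0 : 0 ≤ C := by linarith
    have h1 : C * (1 / Real.sqrt ((2 ^ (2 ^ k) : ℕ) : ℝ)) ≤ (1 / 2) ^ (k + 1) := by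
      clear hi hi1 hi2 hi3 hi4 hi5 hJ hJ3 hg
      obtain ⟨k', rfl⟩ : ∃ k', k = k' + 1 := ⟨k - 1, by omega⟩
      have e1 : Real.sqrt ((2 ^ (2 ^ (k' + 1)) : ℕ) : ℝ) = 2 ^ (2 ^ k') := by
        push_cast
        rw [pow_succ 2 k', pow_mul, Real.sqrt_sq (by positivity)]
      rw [e1, mul_one_div, one_div_pow, div_le_div_iff₀ (by positivity) (by positivity), one_mul]
      have e2 : c0 + (k' + 1 + 1) ≤ 2 ^ k' := by
        have h8 : 2 * k' ≤ 2 ^ k' := by
          have h9 : k' = (k' - 1) + 1 := by omega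
          rw [h9, pow_succ]
          have := Nat.lt_two_pow_self (n := k' - 1)
          omega
        omega
      calc C * 2 ^ (k' + 1 + 1) ≤ 2 ^ c0 * 2 ^ (k' + 1 + 1) :=
            mul_le_mul_of_nonneg_right hc0 (by positivity)
        _ = 2 ^ (c0 + (k' + 1 + 1)) := by rw [← pow_add]
        _ ≤ 2 ^ (2 ^ k') := pow_le_pow_right₀ (by norm_num) e2
    have h2 : C * ((J + 1) * C ^ J / ((2 ^ g : ℕ) : ℝ)) ≤ (1 / 2) ^ (k + 1) := by
      push_cast
      rw [mul_div_assoc', one_div_pow, div_le_div_iff₀ (by positivity) (by positivity), one_mul]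
      have e1 : ((J : ℝ) + 1) ≤ 2 ^ J := by
        have := Nat.lt_two_pow_self (n := J)
        have h9 : J + 1 ≤ 2 ^ J := by omega
        exact_mod_cast h9
      have e2 : C ^ J ≤ (2 ^ c0) ^ J := pow_le_pow_left₀ hC0 hc0 J
      calc C * ((J + 1) * C ^ J) * 2 ^ (k + 1)
          ≤ 2 ^ c0 * (2 ^ J * (2 ^ c0) ^ J) * 2 ^ (k + 1) := by
            apply mul_le_mul_of_nonneg_right _ (by positivity)
            apply mul_le_mul hc0 _ (by positivity) (by positivity)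
            exact mul_le_mul e1 e2 (by positivity) (by positivity)
        _ = 2 ^ (c0 + (J + c0 * J) + (k + 1)) := by
            rw [← pow_mul, ← pow_add, ← pow_add, ← pow_add]
        _ ≤ 2 ^ g := by
            apply pow_le_pow_right₀ (by norm_num)
            have h9 : k + 1 ≤ J := by omega
            rw [hg]
            nlinarith
    have h3 : ((1 : ℝ) / 2) ^ k = (1 / 2) ^ (k + 1) + (1 / 2) ^ (k + 1) := by
      rw [pow_succ]; ring
    rw [h3, mul_add]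
    exact add_le_add h1 h2

end Vale.Agent.P151.QP
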