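import Vale.Agent.P151.R2.H279.Induct
import Vale.Agent.P151.NA.Ext

/-!
# Growth faster than `n ^ (C log n)`: definitions

Percolation on a finite set `Λ` of edges of a graph; `F` a finite set of vertices containing all
endpoints; `U ⊆ F` the deep points.
-/

set_option autoImplicit false

open Finset SimpleGraph

namespace Vale.Agent.P151.QP

open Vale.Agent.P151

variable {V : Type*} [DecidableEq V]

open Classical in
/-- Indicator of a proposition. -/
noncomputable def I1 (P : Prop) : ℝ := if P then 1 else 0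

lemma I1_true {P : Prop} (h : P) : I1 P = 1 := by unfold I1; rw [if_pos h]
lemma I1_false {P : Prop} (h : ¬ P) : I1 P = 0 := by unfold I1; rw [if_neg h]
lemma I1_nonneg (P : Prop) : 0 ≤ I1 P := by unfold I1; split_ifs <;> norm_num
lemma I1_le_one (P : Prop) : I1 P ≤ 1 := by unfold I1; split_ifs <;> norm_num
lemma I1_mono {P Q : Prop} (h : P → Q) : I1 P ≤ I1 Q := by
  by_cases hP : P
  · rw [I1_true hP, I1_true (h hP)]
  · rw [I1_false hP]; exact I1_nonneg Q
lemma I1_and (P Q : Prop) : I1 (P ∧ Q) = I1 P * I1 Q := by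
  by_cases hP : P <;> by_cases hQ : Q <;> simp [I1, hP, hQ]

/-- `x` is joined to the set `W` by open edges. -/
def JW (S : Finset (Sym2 V)) (W : Finset V) (x : V) : Prop := ∃ w ∈ W, Cn S x w

/-- `x` and `y` are joined to `W`, and closing one open edge disconnects both from `W`. -/
def Bag (S : Finset (Sym2 V)) (W : Finset V) (x y : V) : Prop :=
  JW S W x ∧ JW S W y ∧ ∃ e ∈ S, ¬ JW (S.erase e) W x ∧ ¬ JW (S.erase e) W y

/-- The conditional probability, given the configuration `S`, that `x` is joined to a random set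
of density `h`. -/
noncomputable def gh (h : ℝ) (x : V) (S : Finset (Sym2 V)) : ℝ := 1 - (1 - h) ^ csz S x

/-- Indicator that `x`, `y` are in distinct clusters of size at least `m`. -/
noncomputable def DD (m : ℕ) (x y : V) (S : Finset (Sym2 V)) : ℝ :=
  I1 (¬ Cn S x y ∧ m ≤ csz S x ∧ m ≤ csz S y)

/-- The probability that `x`, `y` are in distinct clusters of size at least `m`. -/
noncomputable def PD (p : ℝ) (Λ : Finset (Sym2 V)) (m : ℕ) (x y : V) : ℝ := Ex p Λ (DD m x y)

/-- The expected number of points joined to a random set of density `h`. -/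
noncomputable def Gf (h : ℝ) (F : Finset V) (S : Finset (Sym2 V)) : ℝ := ∑ x ∈ F, gh h x S

/-- The gain when the clusters of `b` and `y` are joined. -/
noncomputable def dG (h : ℝ) (F : Finset V) (b y : V) (S : Finset (Sym2 V)) : ℝ :=
  Gf h F (insert s(b, y) S) - Gf h F S

/-- The gain for all scales `2 ^ i n`. -/
noncomputable def TH (n I : ℕ) (F : Finset V) (b y : V) (S : Finset (Sym2 V)) : ℝ :=
  ∑ i ∈ Finset.range I, (1 / (2 ^ i * n : ℝ)) * dG (1 / (2 ^ i * n : ℝ)) F b y S

/-- Nonnegative kernel with row and column sums at most one. -/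
def Ker (U : Finset V) (A : V → V → ℝ) : Prop :=
  (∀ x y, 0 ≤ A x y) ∧ (∀ x ∈ U, ∑ y ∈ U, A x y ≤ 1) ∧ (∀ y ∈ U, ∑ x ∈ U, A x y ≤ 1)

/-- Composition of kernels. -/
noncomputable def kc (U : Finset V) (A B : V → V → ℝ) (x y : V) : ℝ := ∑ z ∈ U, A x z * B z y

/-- `2 ^ j` steps of the kernel `M`. -/
noncomputable def qq (U : Finset V) (M : V → V → ℝ) : ℕ → V → V → ℝ
  | 0 => M
  | j + 1 => kc U (qq U M j) (qq U M j)

open Classical in
/-- The lazy random walk killed outside `U`. -/
noncomputable def kM (G : SimpleGraph V) [G.LocallyFinite] (d : ℕ) (U : Finset V) (x y : V) : ℝ :=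
  if x ∈ U ∧ y ∈ U then
    (if x = y then 1 - (G.degree x : ℝ) / (2 * d) else if G.Adj x y then 1 / (2 * d) else 0)
  else 0

/-- The window function: the cluster meets a random set of density `h3` but not one of density
`h2`. -/
noncomputable def ww (h2 h3 : ℝ) (x : V) (S : Finset (Sym2 V)) : ℝ :=
  (1 - h2) ^ csz S x * (1 - (1 - h3) ^ csz S x)

end Vale.Agent.P151.QP
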