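import Vale.Agent.P151.QP.Stmts

/-!
# The killed lazy random walk: `WalkStmt`
-/

set_option autoImplicit false
set_option linter.unusedSectionVars false

open Finset SimpleGraph

namespace Vale.Agent.P151.QP

open Vale.Agent.P151

section kernels
variable {V : Type*} [DecidableEq V]

/-- The composition of two kernels is a kernel. -/
theorem Ker.comp {U : Finset V} {A B : V → V → ℝ} (hA : Ker U A) (hB : Ker U B) :
    Ker U (kc U A B) := by
  obtain ⟨hA0, hA1, hA2⟩ := hA
  obtain ⟨hB0, hB1, hB2⟩ := hB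
  refine ⟨fun x y => Finset.sum_nonneg fun z _ => mul_nonneg (hA0 x z) (hB0 z y), ?_, ?_⟩
  · intro x hx
    unfold kc
    rw [Finset.sum_comm]
    calc ∑ z ∈ U, ∑ y ∈ U, A x z * B z y = ∑ z ∈ U, A x z * ∑ y ∈ U, B z y := by
          apply Finset.sum_congr rfl
          intro z _
          rw [Finset.mul_sum]
      _ ≤ ∑ z ∈ U, A x z * 1 :=
          Finset.sum_le_sum fun z hz => mul_le_mul_of_nonneg_left (hB1 z hz) (hA0 x z)
      _ ≤ 1 := by simpa using hA1 x hx
  · intro y hy
    unfold kc
    rw [Finset.sum_comm]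
    calc ∑ z ∈ U, ∑ x ∈ U, A x z * B z y = ∑ z ∈ U, (∑ x ∈ U, A x z) * B z y := by
          apply Finset.sum_congr rfl
          intro z _
          rw [Finset.sum_mul]
      _ ≤ ∑ z ∈ U, 1 * B z y :=
          Finset.sum_le_sum fun z hz => mul_le_mul_of_nonneg_right (hA2 z hz) (hB0 z y)
      _ ≤ 1 := by simpa using hB2 y hy

end kernels

section walk
variable {V : Type*} [DecidableEq V] (G : SimpleGraph V) [G.LocallyFinite]

theorem kM_symm (d : ℕ) (U : Finset V) (x y : V) : kM G d U x y = kM G d U y x := by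
  classical
  unfold kM
  by_cases hxy : x = y
  · subst hxy; rfl
  · rw [if_neg hxy, if_neg (Ne.symm hxy)]
    by_cases h : x ∈ U ∧ y ∈ U
    · rw [if_pos h, if_pos h.symm]
      by_cases hadj : G.Adj x y
      · rw [if_pos hadj, if_pos hadj.symm]
      · rw [if_neg hadj, if_neg (fun h' => hadj h'.symm)]
    · rw [if_neg h, if_neg (fun h' => h h'.symm)]

theorem kM_nonneg {d : ℕ} (hd1 : 1 ≤ d) (hd : ∀ v, G.degree v ≤ d) (U : Finset V) (x y : V) :
    0 ≤ kM G d U x y := by
  classical
  unfold kM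
  have hd0 : (0 : ℝ) < d := by exact_mod_cast hd1
  split_ifs
  · have h1 : (G.degree x : ℝ) ≤ d := by exact_mod_cast hd x
    have h2 : (G.degree x : ℝ) / (2 * d) ≤ 1 := by
      rw [div_le_one (by positivity)]
      linarith
    linarith
  · positivity
  · exact le_rfl
  · exact le_rfl

/-- The row sum of the killed walk. -/
theorem kM_row {d : ℕ} (U : Finset V) {x : V} (hx : x ∈ U) :
    ∑ y ∈ U, kM G d U x y =
      1 - (G.degree x : ℝ) / (2 * d) + ((U ∩ G.neighborFinset x).card : ℝ) * (1 / (2 * d)) := by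
  classical
  have h1 : ∑ y ∈ U, kM G d U x y = ∑ y ∈ U, ((if y = x then 1 - (G.degree x : ℝ) / (2 * d) else 0)
      + (if y ∈ G.neighborFinset x then 1 / (2 * d : ℝ) else 0)) := by
    apply Finset.sum_congr rfl
    intro y hy
    unfold kM
    rw [if_pos ⟨hx, hy⟩]
    by_cases hxy : x = y
    · subst hxy
      simp
    · rw [if_neg hxy, if_neg (Ne.symm hxy), zero_add]
      simp only [mem_neighborFinset]
  rw [h1, Finset.sum_add_distrib, Finset.sum_ite_eq', if_pos hx, ← Finset.sum_filter,
    Finset.sum_const, nsmul_eq_mul, Finset.filter_mem_eq_inter]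

theorem kM_row_le {d : ℕ} (U : Finset V) {x : V} (hx : x ∈ U) :
    ∑ y ∈ U, kM G d U x y ≤ 1 := by
  rw [kM_row G U hx]
  have h1 : ((U ∩ G.neighborFinset x).card : ℝ) ≤ G.degree x := by
    have : (U ∩ G.neighborFinset x).card ≤ (G.neighborFinset x).card :=
      Finset.card_le_card Finset.inter_subset_right
    exact_mod_cast this
  have h2 : ((U ∩ G.neighborFinset x).card : ℝ) * (1 / (2 * d)) ≤ (G.degree x : ℝ) / (2 * d) := by
    rw [mul_one_div]
    exact div_le_div_of_nonneg_right h1 (by positivity)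
  linarith

theorem kM_row_eq {d : ℕ} (U : Finset V) {x : V} (hx : ballF G x 1 ⊆ U) :
    ∑ y ∈ U, kM G d U x y = 1 := by
  have hxU : x ∈ U := hx (mem_ballF_self G x 1)
  rw [kM_row G U hxU]
  have h1 : U ∩ G.neighborFinset x = G.neighborFinset x := by
    rw [Finset.inter_eq_right]
    intro y hy
    apply hx
    rw [mem_ballF_succ]
    exact Or.inr ⟨x, mem_ballF_self G x 0, (mem_neighborFinset _ _ _).1 hy⟩
  rw [h1, card_neighborFinset_eq_degree]
  ring

theorem kM_range {d : ℕ} (U : Finset V) {x y : V} (h : kM G d U x y ≠ 0) : y ∈ ballF G x 1 := by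
  classical
  unfold kM at h
  split_ifs at h with h1 h2 h3
  · subst h2; exact mem_ballF_self G x 1
  · rw [mem_ballF_succ]
    exact Or.inr ⟨x, mem_ballF_self G x 0, h3⟩
  · exact absurd rfl h
  · exact absurd rfl h

theorem kM_ker {d : ℕ} (hd1 : 1 ≤ d) (hd : ∀ v, G.degree v ≤ d) (U : Finset V) :
    Ker U (kM G d U) := by
  refine ⟨kM_nonneg G hd1 hd U, fun x hx => kM_row_le G U hx, fun y hy => ?_⟩
  calc ∑ x ∈ U, kM G d U x y = ∑ x ∈ U, kM G d U y x :=
        Finset.sum_congr rfl fun x _ => kM_symm G d U x y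
    _ ≤ 1 := kM_row_le G U hy

theorem ballF_add {x y z : V} {i j : ℕ} (h : x ∈ ballF G y i) (h' : y ∈ ballF G z j) :
    x ∈ ballF G z (i + j) := by
  obtain ⟨w, hw⟩ := dist_le_of_mem_ballF G y i x h
  obtain ⟨w', hw'⟩ := dist_le_of_mem_ballF G z j y h'
  exact mem_ballF_of_walk G z (i + j) x (w.append w')
    (by rw [SimpleGraph.Walk.length_append]; omega)

theorem qq_range {d : ℕ} (U : Finset V) (j : ℕ) :
    ∀ {x y : V}, qq U (kM G d U) j x y ≠ 0 → y ∈ ballF G x (2 ^ j) := by
  induction j with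
  | zero =>
    intro x y h
    exact kM_range G U h
  | succ j ih =>
    intro x y h
    have h' : ∑ z ∈ U, qq U (kM G d U) j x z * qq U (kM G d U) j z y ≠ 0 := h
    obtain ⟨z, _, hz⟩ := Finset.exists_ne_zero_of_sum_ne_zero h'
    have h1 := ih (left_ne_zero_of_mul hz)
    have h2 := ih (right_ne_zero_of_mul hz)
    rw [pow_succ, mul_two]
    exact ballF_add G h2 h1

/-- The elementary facts on the killed walk. -/
theorem walk {d : ℕ} (hd1 : 1 ≤ d) (hd : ∀ v, G.degree v ≤ d) : Stmts.WalkStmt G d := by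
  intro U j
  induction j with
  | zero =>
    refine ⟨kM_ker G hd1 hd U, fun o ho => ?_⟩
    have : ballF G o 1 ⊆ U := by simpa using ho
    exact kM_row_eq G U this
  | succ j ih =>
    obtain ⟨h1, h2⟩ := ih
    refine ⟨Ker.comp h1 h1, fun o ho => ?_⟩
    have hpow : 2 ^ (j + 1) = 2 ^ j + 2 ^ j := by rw [pow_succ, mul_two]
    have hoU : ballF G o (2 ^ j) ⊆ U :=
      (ballF_mono G o (by rw [hpow]; exact Nat.le_add_left _ _)).trans ho
    calc ∑ b ∈ U, qq U (kM G d U) (j + 1) o b
        = ∑ b ∈ U, ∑ z ∈ U, qq U (kM G d U) j o z * qq U (kM G d U) j z b := rfl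
      _ = ∑ z ∈ U, qq U (kM G d U) j o z * ∑ b ∈ U, qq U (kM G d U) j z b := by
          rw [Finset.sum_comm]
          apply Finset.sum_congr rfl
          intro z _
          rw [Finset.mul_sum]
      _ = ∑ z ∈ U, qq U (kM G d U) j o z := by
          apply Finset.sum_congr rfl
          intro z _
          by_cases hz : qq U (kM G d U) j o z = 0
          · rw [hz, zero_mul]
          · have hzo := qq_range G U j hz
            rw [h2 z, mul_one]
            intro y hy
            apply ho
            rw [hpow]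
            exact ballF_add G hy hzo
      _ = 1 := h2 o hoU

end walk

end Vale.Agent.P151.QP
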