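import Vale.Agent.P151.QP.Iter
import Vale.Agent.P151.QP.Walk

/-!
# (D1) The drop of the tail on a finite set, from the ladder, the window and the heat kernel
-/

set_option autoImplicit false
set_option linter.unusedSectionVars false

open Finset SimpleGraph

namespace Vale.Agent.P151.QP

open Vale.Agent.P151 Vale.Agent.P151.R2.H279

universe u
variable {V : Type u} [DecidableEq V] {G : SimpleGraph V} [G.LocallyFinite]

lemma card_edgesIn_le_mul {d : ℕ} (hd : ∀ v, G.degree v ≤ d) (F : Finset V) :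
    (edgesIn G F).card ≤ d * F.card := by
  classical
  have h1 : edgesIn G F ⊆ F.biUnion (fun v => (edgesIn G F).filter (fun e => v ∈ e)) := by
    intro e he
    rw [Finset.mem_biUnion]
    induction e with
    | _ a b =>
      refine ⟨a, (mk_mem_edgesIn.1 he).2.1, ?_⟩
      rw [Finset.mem_filter]
      exact ⟨he, Sym2.mem_mk_left a b⟩
  have h2 := (Finset.card_le_card h1).trans (Finset.card_biUnion_le_card_mul _ _ d
    (fun v _ => (card_filter_edgesIn_le F v).trans (hd v)))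
  rw [mul_comm]
  exact h2

open Classical in
theorem drop_core (hG : G.Connected) {d : ℕ} (hd1 : 1 ≤ d) (hd : ∀ v, G.degree v ≤ d)
    (hL : Stmts.LadderStmt V) (hL0 : Stmts.Ladder0Stmt V) (hW : Stmts.WindowStmt V)
    (hH : Stmts.HeatStmt G d) (p0 c0 : ℝ) (hp0 : 0 < p0) (hc0 : 0 < c0) :
    ∃ C : ℝ, 1 ≤ C ∧ ∀ (p : ℝ) (n J Γ r : ℕ), p0 ≤ p → p ≤ 1 →
      (∀ x, c0 ≤ phiB G n x p) → 2 ≤ n → 2 ≤ Γ → (Γ ^ (2 + 3 * J)) ^ 2 ≤ n →
      (∀ x, 8 * n ^ 3 ≤ (ballF G x r).card) → C * r ^ 2 * (1 + Real.log n) ≤ 2 ^ J →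
      ∀ F : Finset V,
        ∑ o ∈ F.filter (fun o => ballF G o (n ^ 2) ⊆ F),
          Ex p (edgesIn G F) (ww (1 / (n : ℝ) ^ 2) (1 / n) o) ≤
        C * (1 / Real.sqrt n + (J + 1) * C ^ J / Γ) * F.card := by
  obtain ⟨C1, hC1, H1⟩ := ladder_iter hL hL0 hp0 hc0 d hd1
  obtain ⟨C2, hC2, H2⟩ := hH
  set C : ℝ := max (max C1 (3 * C2)) (max (18 / c0) (2 / c0 * C1)) with hC
  have hCC1 : C1 ≤ C := (le_max_left _ _).trans (le_max_left _ _)
  have hCC2 : 3 * C2 ≤ C := (le_max_right _ _).trans (le_max_left _ _)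
  have hCc : 18 / c0 ≤ C := (le_max_left _ _).trans (le_max_right _ _)
  have hCcc : 2 / c0 * C1 ≤ C := (le_max_right _ _).trans (le_max_right _ _)
  have hC1' : 1 ≤ C := hC1.trans hCC1
  refine ⟨C, hC1', ?_⟩
  intro p n J Γ r hp hp1 hphi hn hΓ hm hvol hJ F
  have hp' : 0 ≤ p := hp0.le.trans hp
  set Λ := edgesIn G F with hΛ
  set U := F.filter (fun z => ballF G z n ⊆ F) with hU
  set m := Γ ^ (2 + 3 * J) with hmdef
  have hUF : U ⊆ F := Finset.filter_subset _ _
  have hm1 : 1 ≤ m := Nat.one_le_pow _ _ (by omega)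
  have hmn : m ≤ n := le_trans (by nlinarith) hm
  have h2J : 2 ^ J ≤ n := by
    refine le_trans ?_ hmn
    calc 2 ^ J ≤ Γ ^ J := Nat.pow_le_pow_left hΓ J
      _ ≤ Γ ^ (2 + 3 * J) := Nat.pow_le_pow_right (by omega) (by omega)
  have hnn : n + 2 ^ J ≤ n ^ 2 := by nlinarith
  have hnR : (2 : ℝ) ≤ n := by exact_mod_cast hn
  have hn0 : (0 : ℝ) < n := by linarith
  have hΛF : ∀ e ∈ Λ, ∀ v ∈ e, v ∈ F := fun e he => (mem_edgesIn.1 he).2
  have hker := fun j => (walk G hd1 hd U j).1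
  have hbig : ∀ z ∈ U, c0 ≤ Ex p Λ (big n z) := by
    intro z hz
    rw [hΛ, Ex_big_local hG p (Finset.mem_filter.1 hz).2]
    exact hphi z
  -- the ladder
  have hlad := H1 p hp hp1 F U Λ hUF hΛF (card_edgesIn_le_mul hd F) (kM G d U)
    (kM_nonneg G hd1 hd U)
    (by
      intro x y
      by_cases hxy : x ∈ U ∧ y ∈ U
      · exact (Finset.single_le_sum (f := fun y => kM G d U x y)
          (fun y _ => kM_nonneg G hd1 hd U x y) hxy.2).trans ((kM_ker G hd1 hd U).2.1 x hxy.1)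
      · unfold kM
        rw [if_neg hxy]
        norm_num)
    (by
      intro x y hxy h
      unfold kM at h
      split_ifs at h with h1 h2
      · exact mk_mem_edgesIn.2 ⟨h2, hUF h1.1, hUF h1.2⟩
      · exact absurd rfl h
      · exact absurd rfl h)
    hker n J Γ hΓ hmn hbig
  -- the heat kernel
  have hκ : ∀ x y, qq U (kM G d U) J x y ≤ 1 / (n : ℝ) ^ 3 := by
    apply H2 U (1 / (n : ℝ) ^ 3) r J (by positivity)
    · rw [div_le_one (by positivity)]
      exact one_le_pow₀ (by linarith)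
    · intro x
      have h1 := hvol x
      have h2 : (8 : ℝ) / (1 / (n : ℝ) ^ 3) = ((8 * n ^ 3 : ℕ) : ℝ) := by
        push_cast
        field_simp
      rw [h2]
      exact_mod_cast h1
    · refine le_trans ?_ hJ
      have h1 : Real.log (1 / (1 / (n : ℝ) ^ 3)) = 3 * Real.log n := by
        rw [one_div_one_div, Real.log_pow]
        norm_num
      rw [h1]
      have h2 : 0 ≤ Real.log n := Real.log_nonneg (by linarith)
      have h3 : C2 * (r : ℝ) ^ 2 * (1 + 3 * Real.log n) ≤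
          C2 * (r : ℝ) ^ 2 * (3 * (1 + Real.log n)) := by
        apply mul_le_mul_of_nonneg_left _ (by positivity)
        linarith
      refine h3.trans ?_
      have h4 : 0 ≤ (r : ℝ) ^ 2 * (1 + Real.log n) := by positivity
      nlinarith
  -- the window
  have hn1 : 1 / (n : ℝ) ≤ 1 := by
    rw [div_le_one hn0]; linarith
  have hn2 : 1 / (n : ℝ) ^ 2 ≤ 1 := by
    rw [div_le_one (by positivity)]
    exact one_le_pow₀ (by linarith)
  have hwin := hW p hp' hp1 F U Λ hUF hΛF (qq U (kM G d U) J) (hker J) (1 / (n : ℝ) ^ 3) hκ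
    (1 / n) (1 / (n : ℝ) ^ 2) (1 / n) (c0 / 2) (by positivity) hn1 (by positivity) hn2
    (by positivity) hn1 (by positivity)
    (fun b hb => gh_ge_of_big hp' hp1 Λ (by omega) le_rfl b (hbig b hb)) m
  have hlow : ∑ o ∈ F.filter (fun o => ballF G o (n ^ 2) ⊆ F),
      Ex p Λ (ww (1 / (n : ℝ) ^ 2) (1 / n) o) ≤
      ∑ o ∈ U, (∑ b ∈ U, qq U (kM G d U) J o b) * Ex p Λ (ww (1 / (n : ℝ) ^ 2) (1 / n) o) := by
    have hww : ∀ o, 0 ≤ Ex p Λ (ww (1 / (n : ℝ) ^ 2) (1 / n) o) := by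
      intro o
      apply Ex_nonneg hp' hp1
      intro S _
      unfold ww
      have e1 : (0 : ℝ) ≤ 1 - 1 / (n : ℝ) ^ 2 := by linarith
      have e2 : (0 : ℝ) ≤ 1 - 1 / (n : ℝ) := by linarith
      have e3 : (0 : ℝ) ≤ 1 / (n : ℝ) := by positivity
      have e4 := pow_le_one₀ (n := csz S o) e2 (by linarith)
      exact mul_nonneg (pow_nonneg e1 _) (by linarith)
    have hsub : F.filter (fun o => ballF G o (n ^ 2) ⊆ F) ⊆ U := by
      intro o ho
      rw [Finset.mem_filter] at ho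
      rw [hU, Finset.mem_filter]
      exact ⟨ho.1, (ballF_mono G o (by nlinarith)).trans ho.2⟩
    calc ∑ o ∈ F.filter (fun o => ballF G o (n ^ 2) ⊆ F),
          Ex p Λ (ww (1 / (n : ℝ) ^ 2) (1 / n) o)
        = ∑ o ∈ F.filter (fun o => ballF G o (n ^ 2) ⊆ F), (∑ b ∈ U, qq U (kM G d U) J o b) *
          Ex p Λ (ww (1 / (n : ℝ) ^ 2) (1 / n) o) := by
          apply Finset.sum_congr rfl
          intro o ho
          rw [Finset.mem_filter] at ho
          rw [(walk G hd1 hd U J).2 o, one_mul]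
          intro z hz
          rw [hU, Finset.mem_filter]
          have h5 : ballF G z n ⊆ ballF G o (n ^ 2) := by
            intro w hw
            exact ballF_mono G o hnn (ballF_add G hw hz)
          exact ⟨ho.2 (ballF_mono G o (by omega) hz), h5.trans ho.2⟩
      _ ≤ _ := by
          apply Finset.sum_le_sum_of_subset_of_nonneg hsub
          intro o ho _
          exact mul_nonneg (Finset.sum_nonneg fun b _ => (hker J).1 o b) (hww o)
  set X := ∑ o ∈ F.filter (fun o => ballF G o (n ^ 2) ⊆ F),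
      Ex p Λ (ww (1 / (n : ℝ) ^ 2) (1 / n) o) with hX
  have hF0 : (0 : ℝ) ≤ F.card := Nat.cast_nonneg _
  have hs0 : 0 < Real.sqrt n := Real.sqrt_pos.2 hn0
  have hss : Real.sqrt n * Real.sqrt n = n := Real.mul_self_sqrt hn0.le
  have hs1 : 1 ≤ Real.sqrt n := by
    rw [Real.one_le_sqrt]; linarith
  have hmR : (m : ℝ) ≤ Real.sqrt n := by
    apply Real.le_sqrt_of_sq_le
    exact_mod_cast hm
  have hinv : 1 / (n : ℝ) ≤ 1 / Real.sqrt n := by
    apply one_div_le_one_div_of_le hs0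
    nlinarith
  have hmn' : (m : ℝ) / n ≤ 1 / Real.sqrt n := by
    rw [div_le_div_iff₀ hn0 hs0, one_mul]
    calc (m : ℝ) * Real.sqrt n ≤ Real.sqrt n * Real.sqrt n :=
          mul_le_mul_of_nonneg_right hmR hs0.le
      _ = n := hss
  have hmain : c0 / 2 * X ≤ (8 / Real.sqrt n + (J + 1) * C1 ^ (J + 1) / Γ) * F.card := by
    have h1 : c0 / 2 * X ≤ c0 / 2 * ∑ o ∈ U, (∑ b ∈ U, qq U (kM G d U) J o b) *
        Ex p Λ (ww (1 / (n : ℝ) ^ 2) (1 / n) o) :=
      mul_le_mul_of_nonneg_left hlow (by positivity)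
    refine h1.trans (hwin.trans ?_)
    have h2 : 5 * (1 / (n : ℝ) ^ 3) * F.card / (1 / (n : ℝ) ^ 2) = 5 * (1 / n) * F.card := by
      field_simp
    have h3 : (1 / (n : ℝ) + 1 / (n : ℝ) ^ 2 + 1 / n) * m * F.card ≤
        3 * (m / n) * F.card := by
      apply mul_le_mul_of_nonneg_right _ hF0
      have h4 : 1 / (n : ℝ) ^ 2 ≤ 1 / n := by
        apply one_div_le_one_div_of_le hn0
        nlinarith
      have h5 : (0 : ℝ) ≤ m := Nat.cast_nonneg _
      calc (1 / (n : ℝ) + 1 / (n : ℝ) ^ 2 + 1 / n) * m ≤ (1 / (n : ℝ) + 1 / n + 1 / n) * m := by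
            apply mul_le_mul_of_nonneg_right _ h5
            linarith
        _ = 3 * (m / n) := by ring
    have h6 : 3 * ((m : ℝ) / n) * F.card ≤ 3 * (1 / Real.sqrt n) * F.card := by
      apply mul_le_mul_of_nonneg_right _ hF0
      linarith
    have h7 : 5 * (1 / (n : ℝ)) * F.card ≤ 5 * (1 / Real.sqrt n) * F.card := by
      apply mul_le_mul_of_nonneg_right _ hF0
      linarith
    rw [h2]
    calc 5 * (1 / (n : ℝ)) * F.card + ∑ o ∈ U, ∑ b ∈ U, qq U (kM G d U) J o b * PD p Λ m o b +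
          (1 / (n : ℝ) + 1 / (n : ℝ) ^ 2 + 1 / n) * m * F.card
        ≤ 5 * (1 / Real.sqrt n) * F.card + (J + 1) * C1 ^ (J + 1) / Γ * F.card +
          3 * (1 / Real.sqrt n) * F.card := by
          apply add_le_add (add_le_add h7 hlad) (h3.trans h6)
      _ = (8 / Real.sqrt n + (J + 1) * C1 ^ (J + 1) / Γ) * F.card := by ring
  have hX2 : X ≤ 2 / c0 * ((8 / Real.sqrt n + (J + 1) * C1 ^ (J + 1) / Γ) * F.card) := by
    calc X = 2 / c0 * (c0 / 2 * X) := by field_simp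
      _ ≤ _ := mul_le_mul_of_nonneg_left hmain (by positivity)
  refine hX2.trans ?_
  rw [← mul_assoc]
  apply mul_le_mul_of_nonneg_right _ hF0
  have hΓ0 : (0 : ℝ) < Γ := by
    have : (2 : ℝ) ≤ Γ := by exact_mod_cast hΓ
    linarith
  have hJ0 : (0 : ℝ) ≤ (J : ℝ) + 1 := by positivity
  have hC0 : 0 ≤ C := by linarith
  have t1 : 2 / c0 * (8 / Real.sqrt n) ≤ C * (1 / Real.sqrt n) := by
    have : 2 / c0 * (8 / Real.sqrt n) = 16 / c0 * (1 / Real.sqrt n) := by ring
    rw [this]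
    apply mul_le_mul_of_nonneg_right _ (by positivity)
    refine le_trans ?_ hCc
    exact div_le_div_of_nonneg_right (by norm_num) hc0.le
  have t2 : 2 / c0 * ((J + 1) * C1 ^ (J + 1) / Γ) ≤ C * ((J + 1) * C ^ J / Γ) := by
    have e1 : 2 / c0 * ((J + 1) * C1 ^ (J + 1) / Γ) =
        (2 / c0 * C1) * ((J + 1) * C1 ^ J / Γ) := by ring
    rw [e1]
    apply mul_le_mul hCcc _ (by positivity) hC0
    apply div_le_div_of_nonneg_right _ hΓ0.le
    apply mul_le_mul_of_nonneg_left _ hJ0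
    exact pow_le_pow_left₀ (by linarith) hCC1 J
  calc 2 / c0 * (8 / Real.sqrt n + (J + 1) * C1 ^ (J + 1) / Γ)
      = 2 / c0 * (8 / Real.sqrt n) + 2 / c0 * ((J + 1) * C1 ^ (J + 1) / Γ) := by ring
    _ ≤ C * (1 / Real.sqrt n) + C * ((J + 1) * C ^ J / Γ) := add_le_add t1 t2
    _ = C * (1 / Real.sqrt n + (J + 1) * C ^ J / Γ) := by ring

end Vale.Agent.P151.QP
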