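import Vale.Agent.P151.QP.Stmts

/-!
# (K2) The frame: from the drop of the tail to the absence of a jump at `p_c`
-/

set_option autoImplicit false
set_option linter.unusedSectionVars false

open Finset SimpleGraph Filter Topology

namespace Vale.Agent.P151.QP

open Vale.Agent.P151 Vale.Agent.P151.QP.Stmts Vale.Agent.P151.R2.H279

universe u
variable {V : Type u} [DecidableEq V] {G : SimpleGraph V} [G.LocallyFinite]

/-- Slightly below `p_c` the tail at a fixed scale is still large. -/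
lemma base_phi (hG : G.Connected) {R : Finset V}
    (hR : ∀ x : V, ∃ g : G ≃g G, g x ∈ R) (hpc : 0 < pc G) (hpc1 : pc G < 1) {θ : ℝ}
    (hθ : 0 < θ) (n : ℕ) (hθn : ∀ x, θ ≤ phiB G n x (pc G)) :
    ∃ p : ℝ, pc G / 2 ≤ p ∧ p < pc G ∧ ∀ x, θ / 2 ≤ phiB G n x p := by
  have hcont : ∀ x : V, Continuous fun p => phiB G n x p := by
    intro x
    rw [continuous_iff_continuousAt]
    intro q
    exact (hasDerivAt_Ex q (edgesIn G (ballF G x n)) (big n x)).continuousAt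
  have e1 : ∀ᶠ p in 𝓝[<] (pc G), pc G / 2 ≤ p := by
    apply mem_nhdsWithin_of_mem_nhds
    exact Ici_mem_nhds (by linarith)
  have e2 : ∀ᶠ p in 𝓝[<] (pc G), p < pc G := self_mem_nhdsWithin
  have e3 : ∀ᶠ p in 𝓝[<] (pc G), ∀ x ∈ R, θ / 2 ≤ phiB G n x p := by
    rw [Finset.eventually_all]
    intro x hx
    apply mem_nhdsWithin_of_mem_nhds
    have f1 : ∀ᶠ p in 𝓝 (pc G), θ / 2 < phiB G n x p :=
      (hcont x).continuousAt.eventually (lt_mem_nhds (by linarith [hθn x]))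
    filter_upwards [f1] with p hp1
    exact hp1.le
  obtain ⟨p, hp1, hp2, hp3⟩ := (e1.and (e2.and e3)).exists
  have h0 : 0 ≤ p := by linarith
  have h1 : p ≤ 1 := by linarith
  refine ⟨p, hp1, hp2, fun x => ?_⟩
  obtain ⟨g, hg⟩ := hR x
  rw [← phiB_aut hG g h0 h1 n x]
  exact hp3 _ hg

/-- **No jump at `p_c`.** -/
theorem no_jump2 (hG : G.Connected) {R : Finset V}
    (hR : ∀ x : V, ∃ g : G ≃g G, g x ∈ R) (hpc : 0 < pc G) (hpc1 : pc G < 1)
    (hdrop : DropStmt G) (hpar : ParamStmt G)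
    {θ : ℝ} (hθ : 0 < θ) (hθn : ∀ n x, θ ≤ phiB G n x (pc G)) : False := by
  obtain ⟨C, hC, hstep⟩ := hdrop (pc G / 2) (θ / 4) (by linarith) (by linarith)
  obtain ⟨k0, hk0⟩ := hpar C hC
  -- the first scale
  obtain ⟨K1, hK1⟩ : ∃ K1 : ℕ, (1 / 2 : ℝ) ^ K1 < θ / 8 :=
    exists_pow_lt_of_lt_one (by positivity) (by norm_num)
  set k1 := max k0 K1 with hk1
  have hk1a : k0 ≤ k1 := le_max_left _ _
  have hk1b : (1 / 2 : ℝ) ^ k1 ≤ θ / 8 := by
    refine le_trans ?_ hK1.le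
    exact pow_le_pow_of_le_one (by norm_num) (by norm_num) (le_max_right _ _)
  obtain ⟨p, hp1, hp2, hbase⟩ := base_phi hG hR hpc hpc1 hθ (2 ^ (2 ^ k1)) (fun x => hθn _ x)
  have h0 : 0 < p := by linarith
  have h1 : p ≤ 1 := by linarith
  have hind : ∀ m : ℕ, ∀ x, θ / 2 - θ / 4 * (1 - (1 / 2) ^ m) ≤
      phiB G (2 ^ (2 ^ (k1 + m))) x p := by
    intro m
    induction m with
    | zero =>
      intro x
      have := hbase x
      simpa using this
    | succ m ih =>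
      intro x
      set k := k1 + m with hk
      have hhalf0 : (0 : ℝ) < (1 / 2) ^ m := by positivity
      have hle : ∀ z, θ / 4 ≤ phiB G (2 ^ (2 ^ k)) z p := by
        intro z
        have := ih z
        nlinarith
      obtain ⟨J, Γ, r, hΓ, hΓn, hvol, hJ, herr⟩ := hk0 k (by omega)
      have hn2 : 2 ≤ 2 ^ (2 ^ k) := by
        calc 2 = 2 ^ 1 := (pow_one 2).symm
          _ ≤ 2 ^ (2 ^ k) := Nat.pow_le_pow_right (by norm_num) Nat.one_le_two_pow
      have e1 := hstep p (2 ^ (2 ^ k)) J Γ r hp1 h1 hle hn2 hΓ hΓn hvol hJ x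
      have e2 := e1.trans herr
      have e3 : (2 ^ (2 ^ k)) ^ 2 = 2 ^ (2 ^ (k1 + (m + 1))) := by
        rw [← pow_mul, ← add_assoc, ← hk, pow_succ 2 k]
      rw [e3] at e2
      have e4 : (1 / 2 : ℝ) ^ k = (1 / 2) ^ k1 * (1 / 2) ^ m := by rw [hk, pow_add]
      have e5 : (1 / 2 : ℝ) ^ k ≤ θ / 8 * (1 / 2) ^ m := by
        rw [e4]
        exact mul_le_mul_of_nonneg_right hk1b hhalf0.le
      have e6 := ih x
      rw [pow_succ]
      linarith
  have hlow : ∀ m : ℕ, ∀ x, θ / 4 ≤ phiB G (2 ^ (2 ^ (k1 + m))) x p := by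
    intro m x
    have := hind m x
    have h3 : (0 : ℝ) < (1 / 2) ^ m := by positivity
    nlinarith
  obtain ⟨x⟩ := hG.nonempty
  have hlim := tendsto_phiB_zero G hG h0.le h1 hp2 x
  obtain ⟨K, hK⟩ := Filter.eventually_atTop.1 (hlim.eventually (gt_mem_nhds (show (0 : ℝ) < θ / 4
    by linarith)))
  have hKle : K ≤ 2 ^ (2 ^ (k1 + K)) := by
    have e1 := Nat.lt_two_pow_self (n := k1 + K)
    have e2 := Nat.lt_two_pow_self (n := 2 ^ (k1 + K))
    omega
  have h3 := hK _ hKle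
  have h4 := hlow K x
  linarith

end Vale.Agent.P151.QP
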