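import Vale.Agent.P151.QP.Stmts

/-! (LI) Iteration of the ladder. -/

set_option autoImplicit false

open Finset SimpleGraph

namespace Vale.Agent.P151.QP

open Vale.Agent.P151

universe u
variable {V : Type u} [DecidableEq V]

omit [DecidableEq V] in
lemma DD_nonneg (m : ℕ) (x y : V) (S : Finset (Sym2 V)) : 0 ≤ DD m x y S := I1_nonneg _

lemma PD_nonneg {p : ℝ} (h0 : 0 ≤ p) (h1 : p ≤ 1) (Λ : Finset (Sym2 V)) (m : ℕ) (x y : V) :
    0 ≤ PD p Λ m x y := Ex_nonneg h0 h1 (fun S _ => DD_nonneg m x y S)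

/-- A vertex in a cluster of size at least `n` is joined to a random set of density `1 / N`,
`N ≤ n`, with probability at least one half. -/
lemma gh_ge_of_big {p : ℝ} (h0 : 0 ≤ p) (h1 : p ≤ 1) (Λ : Finset (Sym2 V)) {N n : ℕ} (hN : 1 ≤ N)
    (hNn : N ≤ n) (z : V) {c : ℝ} (hc : c ≤ Ex p Λ (big n z)) :
    c / 2 ≤ Ex p Λ (gh (1 / (N : ℝ)) z) := by
  have h : Ex p Λ (fun S => (1 / 2 : ℝ) * big n z S) ≤ Ex p Λ (gh (1 / (N : ℝ)) z) := by
    apply Ex_mono h0 h1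
    intro S _
    unfold big
    split_ifs with hb
    · have := gw_ge_half hN (hNn.trans hb)
      rw [mul_one]
      exact this
    · rw [mul_zero]
      have hN' : (1 : ℝ) ≤ N := by exact_mod_cast hN
      have h3 : 1 / (N : ℝ) ≤ 1 := by rw [div_le_one (by linarith)]; exact hN'
      have h4 : 0 ≤ 1 / (N : ℝ) := by positivity
      have := pow_le_one₀ (n := csz S z) (by linarith : (0 : ℝ) ≤ 1 - 1 / (N : ℝ)) (by linarith)
      unfold gh
      linarith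
  rw [Ex_const_mul] at h
  linarith

theorem ladder_iter (hL : Stmts.LadderStmt V) (hL0 : Stmts.Ladder0Stmt V) {p0 c0 : ℝ}
    (hp0 : 0 < p0) (hc0 : 0 < c0) (d : ℕ) (hd : 1 ≤ d) :
    ∃ C : ℝ, 1 ≤ C ∧ ∀ (p : ℝ), p0 ≤ p → p ≤ 1 →
      ∀ (F U : Finset V) (Λ : Finset (Sym2 V)), U ⊆ F → (∀ e ∈ Λ, ∀ v ∈ e, v ∈ F) →
      Λ.card ≤ d * F.card →
      ∀ M : V → V → ℝ, (∀ x y, 0 ≤ M x y) → (∀ x y, M x y ≤ 1) →
      (∀ x y, x ≠ y → M x y ≠ 0 → s(x, y) ∈ Λ) → (∀ j, Ker U (qq U M j)) →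
      ∀ (n J Γ : ℕ), 2 ≤ Γ → Γ ^ (2 + 3 * J) ≤ n → (∀ z ∈ U, c0 ≤ Ex p Λ (big n z)) →
      ∑ x ∈ U, ∑ y ∈ U, qq U M J x y * PD p Λ (Γ ^ (2 + 3 * J)) x y ≤
        (J + 1) * C ^ (J + 1) / Γ * F.card := by
  obtain ⟨C1, hC1, H1⟩ := hL
  obtain ⟨C2, hC2, H2⟩ := hL0
  set K : ℝ := max 1 (4 * C1 / c0) with hK
  set B : ℝ := C2 * d / p0 with hB
  have hdr : (1 : ℝ) ≤ d := by exact_mod_cast hd
  have hK1 : 1 ≤ K := le_max_left _ _
  have hB0 : 0 ≤ B := by
    rw [hB]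
    apply div_nonneg _ hp0.le
    apply mul_nonneg <;> linarith
  refine ⟨max K (B + 2), le_trans hK1 (le_max_left _ _), ?_⟩
  intro p hp0p hp1 F U Λ hUF hΛF hcard M hM0 hM1 hMΛ hKer n J Γ hΓ hn hbig
  have hp : 0 ≤ p := hp0.le.trans hp0p
  have hΓr : (2 : ℝ) ≤ Γ := by exact_mod_cast hΓ
  have hΓ0 : (0 : ℝ) < Γ := by linarith
  have hF0 : (0 : ℝ) ≤ F.card := Nat.cast_nonneg _
  set e : ℕ → ℝ := fun j => ∑ x ∈ U, ∑ y ∈ U, qq U M j x y * PD p Λ (Γ ^ (2 + 3 * j)) x y with he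
  have he0 : ∀ j, 0 ≤ e j := by
    intro j
    apply Finset.sum_nonneg; intro x _
    apply Finset.sum_nonneg; intro y _
    exact mul_nonneg ((hKer j).1 x y) (PD_nonneg hp hp1 Λ _ x y)
  -- the base
  have hbase : e 0 ≤ B * (F.card / Γ) := by
    have h := H2 p hp hp1 F U Λ d hd hUF hΛF hcard M hM0 hM1 hMΛ (Γ ^ 2) (by nlinarith)
    have hsq : Real.sqrt ((Γ ^ 2 : ℕ) : ℝ) = Γ := by
      push_cast
      exact Real.sqrt_sq hΓ0.le
    rw [hsq] at h
    have h' : p0 * e 0 ≤ C2 * d * F.card / Γ := by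
      refine le_trans (mul_le_mul_of_nonneg_right hp0p (he0 0)) ?_
      simpa [he, qq] using h
    have : e 0 ≤ (C2 * d * F.card / Γ) / p0 := by
      rw [le_div_iff₀ hp0]; linarith
    refine this.trans (le_of_eq ?_)
    rw [hB]; field_simp
  -- the step
  have hstep : ∀ j, j < J → e (j + 1) ≤ K * e j + 3 / 2 * K * (F.card / Γ) := by
    intro j hj
    have hΓj : 1 ≤ Γ ^ (2 + 3 * j) := Nat.one_le_pow _ _ (by omega)
    set N : ℕ := Γ * Γ ^ (2 + 3 * j) with hN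
    have hN1 : 1 ≤ N := Nat.one_le_iff_ne_zero.2 (by positivity)
    have hNn : N ≤ n := by
      refine le_trans ?_ hn
      rw [hN, ← pow_succ']
      exact Nat.pow_le_pow_right (by omega) (by omega)
    have hn2 : 2 ≤ Γ ^ (2 + 3 * (j + 1)) := by
      calc 2 ≤ Γ := hΓ
        _ = Γ ^ 1 := (pow_one _).symm
        _ ≤ _ := Nat.pow_le_pow_right (by omega) (by omega)
    have hNr : (1 : ℝ) ≤ N := by exact_mod_cast hN1
    have hs0 : (0 : ℝ) < 1 / (N : ℝ) := by positivity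
    have hs1 : 1 / (N : ℝ) ≤ 1 := by rw [div_le_one (by linarith)]; exact hNr
    have h := H1 p hp hp1 F U Λ hUF hΛF (qq U M j) (qq U M j) (hKer j) (hKer j)
      (Γ ^ (2 + 3 * j)) (Γ ^ (2 + 3 * (j + 1))) hΓj hn2 (1 / (N : ℝ)) (c0 / 2) hs0 hs1
      (by linarith) (fun z hz => gh_ge_of_big hp hp1 Λ hN1 hNn z (hbig z hz))
    have hm0 : (0 : ℝ) < (Γ : ℝ) ^ (2 + 3 * j) := by positivity
    have e0 : (Γ : ℝ) ^ (2 + 3 * (j + 1)) = (Γ : ℝ) ^ (2 + 3 * j) * (Γ : ℝ) ^ 3 := by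
      rw [← pow_add]; congr 1
    have e1 : 1 / (N : ℝ) * ((Γ ^ (2 + 3 * j) : ℕ) : ℝ) = 1 / Γ := by
      rw [hN]; push_cast; field_simp
    have e2 : ((Γ ^ (2 + 3 * j) : ℕ) : ℝ) / ((Γ ^ (2 + 3 * (j + 1)) : ℕ) : ℝ) ≤ 1 / Γ := by
      push_cast
      rw [e0, div_le_div_iff₀ (by positivity) hΓ0]
      have h5 : (Γ : ℝ) ≤ (Γ : ℝ) ^ 3 := le_self_pow₀ (by linarith) (by norm_num)
      have h6 := mul_le_mul_of_nonneg_left h5 hm0.le
      linarith
    have e3 : Real.sqrt (1 / (N : ℝ) * ((Γ ^ (2 + 3 * (j + 1)) : ℕ) : ℝ)) = Γ := by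
      have : 1 / (N : ℝ) * ((Γ ^ (2 + 3 * (j + 1)) : ℕ) : ℝ) = (Γ : ℝ) ^ 2 := by
        rw [hN]; push_cast
        rw [e0]
        field_simp
      rw [this]
      exact Real.sqrt_sq hΓ0.le
    rw [e1, e3] at h
    have h' : c0 / 2 * e (j + 1) ≤ C1 * (e j + e j + (1 / Γ + 1 / Γ + 1 / Γ) * F.card) := by
      refine le_trans (le_of_eq ?_) (h.trans ?_)
      · simp [he, qq]
      · apply mul_le_mul_of_nonneg_left _ (by linarith)
        have := mul_le_mul_of_nonneg_right e2 hF0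
        simp only [he]
        nlinarith
    have h2 : e (j + 1) ≤ 4 * C1 / c0 * (e j + 3 / 2 * (F.card / Γ)) := by
      rw [div_mul_eq_mul_div, le_div_iff₀ hc0]
      have : C1 * (e j + e j + (1 / Γ + 1 / Γ + 1 / Γ) * F.card) =
          2 * C1 * e j + 3 * C1 * (F.card / Γ) := by field_simp; ring
      rw [this] at h'
      nlinarith
    refine h2.trans ?_
    have h3 : 0 ≤ e j + 3 / 2 * (F.card / Γ) := by
      have := he0 j
      positivity
    calc 4 * C1 / c0 * (e j + 3 / 2 * (F.card / Γ)) ≤ K * (e j + 3 / 2 * (F.card / Γ)) :=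
          mul_le_mul_of_nonneg_right (le_max_right _ _) h3
      _ = _ := by ring
  -- the iteration
  have hFΓ : 0 ≤ (F.card : ℝ) / Γ := by positivity
  have hind : ∀ j, j ≤ J → e j ≤ (B + 3 / 2 * j) * K ^ j * (F.card / Γ) := by
    intro j
    induction j with
    | zero => intro _; simpa using hbase
    | succ j ih =>
      intro hj
      have h1 := ih (by omega)
      have h2 := hstep j (by omega)
      have hKj : (1 : ℝ) ≤ K ^ j := one_le_pow₀ hK1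
      have h3 : K * (F.card / Γ) ≤ K ^ (j + 1) * (F.card / Γ) := by
        apply mul_le_mul_of_nonneg_right _ hFΓ
        rw [pow_succ]
        nlinarith
      calc e (j + 1) ≤ K * e j + 3 / 2 * K * (F.card / Γ) := h2
        _ ≤ K * ((B + 3 / 2 * j) * K ^ j * (F.card / Γ)) + 3 / 2 * (K ^ (j + 1) * (F.card / Γ)) := by
            have := mul_le_mul_of_nonneg_left h1 (by linarith : (0 : ℝ) ≤ K)
            linarith
        _ = _ := by push_cast; ring
  have hfin := hind J le_rfl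
  refine hfin.trans ?_
  set C : ℝ := max K (B + 2) with hC
  have hCK : K ≤ C := le_max_left _ _
  have hCB : B + 2 ≤ C := le_max_right _ _
  have hC0 : 0 ≤ C := by linarith
  have hJ0 : (0 : ℝ) ≤ J := Nat.cast_nonneg _
  have h1 : B + 3 / 2 * J ≤ (J + 1) * C := by nlinarith
  have h2 : K ^ J ≤ C ^ J := pow_le_pow_left₀ (by linarith) hCK J
  calc (B + 3 / 2 * J) * K ^ J * (F.card / Γ) ≤ ((J + 1) * C) * C ^ J * (F.card / Γ) := by
        apply mul_le_mul_of_nonneg_right _ hFΓ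
        apply mul_le_mul h1 h2 (by positivity) (by positivity)
    _ = _ := by rw [pow_succ]; ring

end Vale.Agent.P151.QP
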