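import Vale.Agent.P151.QP.Defs

/-! BLUEPRINT: literal statements.  Each item is proved in its own file by its owner. -/

set_option autoImplicit false

open Finset SimpleGraph

namespace Vale.Agent.P151.QP.Stmts

open Vale.Agent.P151 Vale.Agent.P151.QP

universe u
variable (V : Type u) [DecidableEq V]

/-- (M) Menger for two edge-disjoint paths. -/
def MengerStmt : Prop := ∀ (S : Finset (Sym2 V)) (W : Finset V) (x y : V),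
  JW S W x → JW S W y → ¬ Bag S W x y →
  ∃ S1 S2, S1 ⊆ S ∧ S2 ⊆ S ∧ Disjoint S1 S2 ∧ JW S1 W x ∧ JW S2 W y

/-- (V1) covariance bound for fixed ghost sets (BK over the edges). -/
def CovStmt : Prop := ∀ (p : ℝ), 0 ≤ p → p ≤ 1 → ∀ (Λ : Finset (Sym2 V)) (W' W : Finset V) (b o : V),
  Ex p Λ (fun S => I1 (JW S (W' ∪ W) b) * I1 (JW S W o)) ≤
    Ex p Λ (fun S => I1 (JW S (W' ∪ W) b)) * Ex p Λ (fun S => I1 (JW S W o)) +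
      Ex p Λ (fun S => I1 (Bag S W b o))

/-- (B) the bag is small, for every fixed `S`. -/
def BagStmt : Prop := ∀ (h : ℝ), 0 < h → h ≤ 1 → ∀ (F : Finset V) (S : Finset (Sym2 V)),
  (∀ e ∈ S, ∀ v ∈ e, v ∈ F) → ∀ x ∈ F,
  Ex h F (fun W => ∑ y ∈ F, I1 (Bag S W x y)) ≤ 4 / h

/-- (V) the variance bound. -/
def VarStmt : Prop := ∀ (p : ℝ), 0 ≤ p → p ≤ 1 → ∀ (h : ℝ), 0 < h → h ≤ 1 →
  ∀ (F : Finset V) (Λ : Finset (Sym2 V)), (∀ e ∈ Λ, ∀ v ∈ e, v ∈ F) →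
  ∀ a : V → ℝ, (∀ x, 0 ≤ a x) → (∀ x, a x ≤ 1) →
  Ex p Λ (fun S => (∑ x ∈ F, a x * gh h x S) ^ 2) - (Ex p Λ (fun S => ∑ x ∈ F, a x * gh h x S)) ^ 2
    ≤ 4 / h * F.card

/-- (T1) upper bounds for the gain. -/
def ThUpStmt : Prop := ∀ (n I : ℕ), 1 ≤ n → ∀ (F : Finset V) (S : Finset (Sym2 V)),
  (∀ e ∈ S, ∀ v ∈ e, v ∈ F) → ∀ b ∈ F, ∀ y ∈ F, ∀ m : ℕ,
  0 ≤ TH n I F b y S ∧ TH n I F b y S ≤ 8 * (DD m b y S + m / n)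

/-- (T2) lower bound for the gain. -/
def ThLowStmt : Prop := ∀ (n I : ℕ), 2 ≤ n → ∀ (F : Finset V) (S : Finset (Sym2 V)),
  (∀ e ∈ S, ∀ v ∈ e, v ∈ F) → F.card < 2 ^ I * n → ∀ b ∈ F, ∀ y ∈ F,
  DD n b y S ≤ 64 * TH n I F b y S

/-- (L) one step of the ladder. -/
def LadderStmt : Prop := ∃ C0 : ℝ, 1 ≤ C0 ∧ ∀ (p : ℝ), 0 ≤ p → p ≤ 1 →
  ∀ (F U : Finset V) (Λ : Finset (Sym2 V)), U ⊆ F → (∀ e ∈ Λ, ∀ v ∈ e, v ∈ F) →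
  ∀ A B : V → V → ℝ, Ker U A → Ker U B → ∀ (m n : ℕ), 1 ≤ m → 2 ≤ n → ∀ (s c : ℝ), 0 < s → s ≤ 1 →
  0 ≤ c → (∀ z ∈ U, c ≤ Ex p Λ (gh s z)) →
  c * ∑ x ∈ U, ∑ y ∈ U, kc U A B x y * PD p Λ n x y ≤
    C0 * (∑ x ∈ U, ∑ y ∈ U, A x y * PD p Λ m x y + ∑ x ∈ U, ∑ y ∈ U, B x y * PD p Λ m x y +
      (s * m + m / n + 1 / Real.sqrt (s * n)) * F.card)

/-- (L0) the first step of the ladder. -/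
def Ladder0Stmt : Prop := ∃ C0 : ℝ, 1 ≤ C0 ∧ ∀ (p : ℝ), 0 ≤ p → p ≤ 1 →
  ∀ (F U : Finset V) (Λ : Finset (Sym2 V)) (d : ℕ), 1 ≤ d → U ⊆ F → (∀ e ∈ Λ, ∀ v ∈ e, v ∈ F) →
  Λ.card ≤ d * F.card →
  ∀ A : V → V → ℝ, (∀ x y, 0 ≤ A x y) → (∀ x y, A x y ≤ 1) →
  (∀ x y, x ≠ y → A x y ≠ 0 → s(x, y) ∈ Λ) → ∀ n : ℕ, 2 ≤ n →
  p * ∑ x ∈ U, ∑ y ∈ U, A x y * PD p Λ n x y ≤ C0 * d * F.card / Real.sqrt n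

/-- (S) the window drop. -/
def WindowStmt : Prop := ∀ (p : ℝ), 0 ≤ p → p ≤ 1 →
  ∀ (F U : Finset V) (Λ : Finset (Sym2 V)), U ⊆ F → (∀ e ∈ Λ, ∀ v ∈ e, v ∈ F) →
  ∀ K : V → V → ℝ, Ker U K → ∀ (κ : ℝ), (∀ x y, K x y ≤ κ) →
  ∀ (h1 h2 h3 c : ℝ), 0 < h1 → h1 ≤ 1 → 0 < h2 → h2 ≤ 1 → 0 < h3 → h3 ≤ 1 → 0 ≤ c →
  (∀ b ∈ U, c ≤ Ex p Λ (gh h1 b)) → ∀ m : ℕ,
  c * ∑ o ∈ U, (∑ b ∈ U, K o b) * Ex p Λ (ww h2 h3 o) ≤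
    5 * κ * F.card / h2 + ∑ o ∈ U, ∑ b ∈ U, K o b * PD p Λ m o b + (h1 + h2 + h3) * m * F.card

variable {V}
/-- (N) the heat kernel of the killed walk. -/
def HeatStmt (G : SimpleGraph V) [G.LocallyFinite] (d : ℕ) : Prop :=
  ∃ C : ℝ, 0 < C ∧ ∀ (U : Finset V) (κ : ℝ) (r j : ℕ), 0 < κ → κ ≤ 1 →
    (∀ x, 8 / κ ≤ ((ballF G x r).card : ℝ)) → C * r ^ 2 * (1 + Real.log (1 / κ)) ≤ 2 ^ j →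
    ∀ x y, qq U (kM G d U) j x y ≤ κ

/-- (N0) elementary facts on the killed walk. -/
def WalkStmt (G : SimpleGraph V) [G.LocallyFinite] (d : ℕ) : Prop :=
  ∀ (U : Finset V) (j : ℕ), Ker U (qq U (kM G d U) j) ∧
    ∀ o, ballF G o (2 ^ j) ⊆ U → ∑ b ∈ U, qq U (kM G d U) j o b = 1

/-- (D) the drop of the tail between `n` and `n ^ 2`. -/
def DropStmt (G : SimpleGraph V) [G.LocallyFinite] : Prop :=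
  ∀ (p0 c0 : ℝ), 0 < p0 → 0 < c0 → ∃ C : ℝ, 1 ≤ C ∧ ∀ (p : ℝ) (n J Γ r : ℕ), p0 ≤ p → p ≤ 1 →
    (∀ x, c0 ≤ phiB G n x p) → 2 ≤ n → 2 ≤ Γ → (Γ ^ (2 + 3 * J)) ^ 2 ≤ n →
    (∀ x, 8 * n ^ 3 ≤ (ballF G x r).card) → C * r ^ 2 * (1 + Real.log n) ≤ 2 ^ J →
    ∀ x, phiB G n x p - phiB G (n ^ 2) x p ≤ C * (1 / Real.sqrt n + (J + 1) * C ^ J / Γ)

/-- The growth condition: faster than `n ^ (A log n)` for every `A`. -/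
def Growth (G : SimpleGraph V) [G.LocallyFinite] (o : V) : Prop :=
  ∀ A : ℝ, ∃ N : ℕ, ∀ n : ℕ, N ≤ n → Real.exp (A * Real.log n ^ 2) ≤ ((ballF G o n).card : ℝ)

/-- (K1) choice of the parameters. -/
def ParamStmt (G : SimpleGraph V) [G.LocallyFinite] : Prop :=
  ∀ C : ℝ, 1 ≤ C → ∃ k0 : ℕ, ∀ k : ℕ, k0 ≤ k → ∃ J Γ r : ℕ, 2 ≤ Γ ∧
    (Γ ^ (2 + 3 * J)) ^ 2 ≤ 2 ^ (2 ^ k) ∧
    (∀ x, 8 * (2 ^ (2 ^ k)) ^ 3 ≤ (ballF G x r).card) ∧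
    C * r ^ 2 * (1 + Real.log ((2 ^ (2 ^ k) : ℕ) : ℝ)) ≤ 2 ^ J ∧
    C * (1 / Real.sqrt ((2 ^ (2 ^ k) : ℕ) : ℝ) + (J + 1) * C ^ J / Γ) ≤ (1 / 2) ^ k

end Vale.Agent.P151.QP.Stmts
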